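import Vale.Agent.P283R.Wc.St
import Vale.Agent.P283R.Wd.Baks36

/-!
# P283R, block WD: the row BKR
-/

open Set

noncomputable section

namespace Vale.Agent.P283R.Wc

open Vale.Agent.P287D Vale.Agent.P283M Vale.Agent.P297Z Cx

namespace B64

variable {K : Type} [Field K] [Algebra ℂ K] {k : ℕ}

/-- the coefficient of a prime in a combination of the primes `e i` -/
theorem dot {e : Fin k → Pl K} (inj : Function.Injective e) (z : Pl K → ℤ) {P : Pl K}
    (h : P ∉ range e → z P = 0) : (fun i => z (e i)) ⬝ᵥ Dr e P = z P := by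
  classical
  by_cases c : P ∈ range e
  · obtain ⟨i, rfl⟩ := c
    simp [dotProduct, Dr, inj.eq_iff]
  · rw [h c]
    exact Finset.sum_eq_zero fun i _ => by
      rw [Dr, if_neg fun x => c ⟨i, x.symm⟩, mul_zero]

/-- the enumeration of a finite set -/
theorem enum {α : Type} {A : Set α} (h : A.Finite) :
    ∃ (k : ℕ) (e : Fin k → α), Function.Injective e ∧ range e = A := by
  have := h.fintype
  refine ⟨_, fun i => ((Fintype.equivFin A).symm i : α),
    Subtype.val_injective.comp (Equiv.injective _), ?_⟩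
  ext x
  exact ⟨by rintro ⟨i, rfl⟩; exact Subtype.prop _, fun hx => ⟨Fintype.equivFin A ⟨x, hx⟩, by simp⟩⟩

end B64

open B64 in
/-- **BKR** -/
theorem bkr64 : BKR := by
  intro cox n K _ _ u Λ Γ Γ' dt q m z g κ hq m2 lk H
  obtain ⟨j, j0, ec⟩ := lk.cn
  obtain ⟨k, e, inj, re⟩ := enum (lk.fz.union lk.fk)
  have eT : ∀ i, e i ∈ Tt n u Λ := fun i => by
    have : e i ∈ range e := ⟨i, rfl⟩
    rw [re] at this
    exact this.elim And.left And.left
  have d1 : ∀ P ∈ Tt n u Λ, (fun i => z (e i)) ⬝ᵥ Dr e P = z P := fun P p =>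
    dot inj z fun c => by_contra fun x => c (re ▸ Or.inl ⟨p, x⟩)
  have d2 : ∀ P ∈ Tt n u Λ, (fun i => κ (e i)) ⬝ᵥ Dr e P = κ P := fun P p =>
    dot inj κ fun c => by_contra fun x => c (re ▸ Or.inr ⟨p, x⟩)
  have p0 := pow_ne_zero q j0
  have h0 := mul_ne_zero p0 lk.g0
  have eq : ∀ P ∈ Tt n u Λ, (q : ℝ) * Γ P = q * P.ord j + P.ord g + κ P := fun P p => by
    have a := lk.eq P p
    simp only [dsc, Pi.sub_apply, ec] at a
    linarith
  obtain ⟨N, σ, α, x⟩ := cox n K u Λ Γ Γ' dt k e inj eT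
    ⟨j, fun i => z (e i), j0, fun P p => by rw [d1 P p, ec, add_comm]⟩
  refine Wd.baks dt x (h := j ^ q * g) (δ := fun i => κ (e i)) ⟨h0, fun P p => ?_⟩
    (m2.trans (Nat.le_mul_of_pos_left _ hq)) fun Q o => ?_
  · rw [d2 P p, Pi.smul_apply, smul_eq_mul, eq P p, Pl.ord_mul _ p0 lk.g0, Pl.ord_pow]
    push_cast
    ring
  · obtain ⟨φ, φ0, k1, k2⟩ := H Q o
    have g1 := pow_ne_zero m lk.g0
    refine ⟨(j ^ q * g) ^ m * φ, mul_ne_zero (pow_ne_zero _ h0) φ0, fun E hE => ?_, ?_⟩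
    · have k3 := (Int.cast_le (R := ℝ)).2 (k1 E hE)
      rw [Pl.ord_mul _ (pow_ne_zero _ h0) φ0, Pl.ord_pow, Pl.ord_mul _ p0 lk.g0, Pl.ord_pow]
      push_cast at k3 ⊢
      rw [mul_right_comm, eq E hE]
      linarith
    · rw [Pl.ord_mul _ g1 φ0, Pl.ord_pow, ← Int.cast_lt (R := ℝ)] at k2
      rw [ec, Pl.ord_mul _ (pow_ne_zero _ h0) φ0, Pl.ord_pow, Pl.ord_mul _ p0 lk.g0, Pl.ord_pow]
      push_cast at k2 ⊢
      linarith

end Vale.Agent.P283R.Wc
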