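import Vale.Agent.P283R.Wc.St
import Vale.Agent.P283R.Wd.Dxs36
import Vale.Agent.P283R.Un.Fg
import Vale.Agent.P283R.To.Cv

/-!
# P283R, block WD, the last layer: Cox data exist
-/

open Set

noncomputable section

namespace Vale.Agent.P283R.Wc

open Vale.Agent.P287D Vale.Agent.P283M Cx P277Z.Gr

/-- generators which are not zero -/
theorem gens36 {K : Type} [Field K] [Algebra ℂ K] {k : ℕ} {H : (Fin k → ℤ) → Submodule ℂ K}
    (hH : Fam H) (h : FG H univ) : ∃ (N : ℕ) (s : Fin N → K) (a : Fin N → Fin k → ℤ),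
      (∀ j, s j ≠ 0) ∧ ∀ e, Sp s a e = H e := by
  obtain ⟨T, t1, t2, t3⟩ := fg_iff.1 h
  obtain ⟨N, f, hf⟩ := (t1.subset (sep_subset T fun t => t.2 ≠ 0)).fin_embedding
  have m : ∀ j, f j ∈ T ∧ (f j).2 ≠ 0 := fun j => (hf ▸ mem_range_self j : f j ∈ {t ∈ T | t.2 ≠ 0})
  have d : ∀ c : Fin N → ℕ, dg (fun j => (f j).1) c = ∑ j, c j • (f j).1 := fun c =>
    funext fun i => by simp [dg, Finset.sum_apply]
  refine ⟨N, fun j => (f j).2, fun j => (f j).1, fun j => (m j).2, fun e => le_antisymm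
    (Submodule.span_le.2 ?_) ((t3 e trivial).trans (Submodule.span_le.2 fun g hg => ?_))⟩
  · rintro _ ⟨c, rfl, rfl⟩
    rw [d]
    exact Mono.mem_fam hH (T := range fun j => ((f j).1, (f j).2))
      (by rintro _ ⟨j, rfl⟩; exact t2 _ (m j).1) ((Mono.iff_range _ _).2 ⟨c, rfl, rfl⟩)
  · by_cases g0 : g = 0
    · rw [g0]
      exact zero_mem _
    have : Mono (range fun j => ((f j).1, (f j).2)) e g := by
      have hg' : Mono T e g := hg
      clear hg
      induction hg' with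
      | one => exact Mono.one
      | mul t _ ih =>
        exact Mono.mul (by
          show _ ∈ range f
          rw [hf]
          exact ⟨t, left_ne_zero_of_mul g0⟩) (ih (right_ne_zero_of_mul g0))
    obtain ⟨c, rfl, rfl⟩ := (Mono.iff_range _ _).1 this
    exact Submodule.subset_span ⟨c, d c, rfl⟩

/-- **COX** -/
theorem cox36 : COX := by
  rintro n K _ _ u Λ Γ Γ' dt k e - - ⟨h, δ, E⟩
  have f : ∀ i, {P | Ov u P ∧ On n Λ P ∧ Dr e P i ≠ 0}.Finite := fun i =>
    (finite_singleton (e i)).subset fun P p => by_contra fun c => p.2.2 (if_neg c)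
  obtain ⟨N, s, a, s0, H⟩ := gens36 (Un.fam_Hs _ _) (Un.fg dt (fun i P => Dr e P i) f)
  refine ⟨N, s, a, Wd.frs dt Subset.rfl E (fun d φ φ0 => ?_) (fun φ d => ?_) s0⟩
  · rw [H, Un.mem_Hs]
    exact ⟨fun c => c φ0, fun c _ => c⟩
  · refine ((To.Cv.fin_car dt (dv_mem_Car φ)).union (finite_range e)).subset fun P p =>
      or_iff_not_imp_right.2 fun c => ⟨p.1.2, fun z => p.2 ?_⟩
    have b : P.ord φ = 0 := Int.cast_eq_zero.1 z
    have : ∀ i, P ≠ e i := fun i x => c ⟨i, x.symm⟩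
    simp [b, dotProduct, Dr, this]

end Vale.Agent.P283R.Wc
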