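import Vale.Agent.P283R.Wc.St

/-!
# P283R, block WD, the last layer: some of the divisors are removed
-/

open Set

noncomputable section

namespace Vale.Agent.P283R.Wc

open Vale.Agent.P287D Vale.Agent.P283M Cx Cy

namespace L24

variable {k k' : ℕ} {j : Fin k' → Fin k}

theorem sum_j {R : Type} [AddCommMonoid R] (hj : Function.Injective j) (f : Fin k → R)
    (h : ∀ i ∉ range j, f i = 0) : ∑ i, f i = ∑ i, f (j i) :=
  (Fintype.sum_of_injective j hj _ _ h fun _ => rfl).symm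

theorem pa_j (hj : Function.Injective j) (v : Fin k → ℤ) (ξ : Fin k' → ℝ) :
    pa v (Function.extend j ξ 0) = pa (v ∘ j) ξ := by
  rw [pa, sum_j hj _ fun i hi => by rw [Function.extend_apply' _ _ _ hi]; simp]
  simp only [pa, hj.extend_apply, Function.comp]

variable {K : Type} [Field K] [Algebra ℂ K] {N : ℕ} {σ : Fin N → K} {α : Fin N → Fin k → ℤ}

theorem sp_j (v : Fin k → ℤ) : Sp σ α v ≤ Sp σ (fun i => α i ∘ j) (v ∘ j) :=
  Submodule.span_mono (image_mono fun _ hc => congrArg (· ∘ j) hc)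

end L24

open L24

theorem loc24 : LOC := by
  intro K _ _ d k k' N l q ε t T X e j σ α f h g δ b he hj hX hi x
  obtain ⟨l', f', ci⟩ := Cg.exists_rel (s := σ) (a := fun i => α i ∘ j)
  have dr : ∀ P ∉ X, ∀ v : Fin k → ℤ, v ⬝ᵥ Dr e P = (v ∘ j) ⬝ᵥ Dr (e ∘ j) P := fun P hP v =>
    sum_j hj _ fun i hn => by
      rw [Dr, if_neg fun z : P = e i => hP (z ▸ (hi i).2 hn), mul_zero]
  have ex : ∀ (v : Fin k' → ℤ) (w : Fin k → ℤ), Function.extend j v w ∘ j = v := fun v w =>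
    Function.extend_comp hj v w
  refine ⟨l', f', x.ff, x.fr, ⟨x.cox.ne, fun v φ φ0 => ⟨fun hφ P hP => ?_, fun hφ => ?_⟩,
    fun φ v => ?_, fun φ => ?_, fun v => ?_⟩, ci, x.h0, x.g0, sp_j b x.gs, fun E hE => ?_,
    fun P ξ H => ?_, fun ξ H => ?_⟩
  · have : φ ∈ P.sub ((v ⬝ᵥ Dr (e ∘ j) P : ℤ) : ℝ) := by
      refine Submodule.span_le.2 ?_ hφ
      rintro _ ⟨c, hc, rfl⟩
      have := (x.cox.sec (dg α c) _ (Finset.prod_ne_zero_iff.2 fun i _ =>
        pow_ne_zero (c i) (x.cox.ne i))).1 (Submodule.subset_span ⟨c, rfl, rfl⟩) P hP.1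
      rw [dr P hP.2, show dg α c ∘ j = v from hc] at this
      exact Or.inr (by exact_mod_cast this)
    exact_mod_cast this.resolve_left φ0
  · rw [← ex v fun i => -(e i).ord φ]
    refine sp_j _ ((x.cox.sec _ φ φ0).2 fun P hP => ?_)
    by_cases hx : P ∈ X
    · obtain ⟨i, rfl⟩ := hX hx
      rw [dotProduct, Finset.sum_eq_single i (fun i' _ n => by
        rw [Dr, if_neg fun z => n (he z).symm, mul_zero]) (by simp), Dr, if_pos rfl,
        Function.extend_apply' _ _ _ ((hi i).1 hx)]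
      simp
    · rw [dr P hx, ex]
      exact hφ P ⟨hP, hx⟩
  · refine (x.cox.fin φ (Function.extend j v 0)).subset fun P hP => ⟨hP.1.1, ?_⟩
    rw [dr P hP.1.2, ex]
    exact hP.2
  · obtain ⟨v, a, ha, c, hc, r⟩ := x.cox.fr0 φ
    exact ⟨_, a, sp_j v ha, c, sp_j v hc, r⟩
  · obtain ⟨v', a, ha, c, hc, r⟩ := x.cox.fr1 (Function.extend j v 0)
    have := sp_j (j := j) _ ha
    rw [show (Function.extend j v 0 + v') ∘ j = v + v' ∘ j from congrArg (· + v' ∘ j) (ex v 0)]
      at this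
    exact ⟨_, a, this, c, sp_j v' hc, r⟩
  · rw [← dr E hE.2, ← dr E hE.2]
    exact x.eq E hE.1
  · rw [← pa_j hj]
    exact x.hw P _ fun i => by rw [pa_j hj]; exact H i
  · have := x.lw (Function.extend j ξ 0) fun i => by rw [pa_j hj]; exact H i
    rw [pa_j hj, pa_j hj] at this
    refine ⟨this.1, fun n => this.2 fun z => n ?_⟩
    rw [← Function.extend_comp hj ξ 0, z]
    rfl

end Vale.Agent.P283R.Wc
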