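import Vale.Agent.P283R.Wc.St
import Vale.Agent.P283M.Kl.Bas

/-!
# P283R, block WD, the last layer: Hartogs over the base
-/

noncomputable section

namespace Vale.Agent.P283R.Wc

open Vale.Agent.P287D Vale.Agent.P283M

theorem ovq22 : OVQ := fun _ _ _ _ _ _ _ _ a Q φ o _ h => by
  have := Kl.harto' a.ff a.big (Dsc.dv a.smp φ) a.base
    (fun R r1 r2 => Int.cast_nonneg (R := ℝ) (h R ⟨r1, r2⟩)) o
  exact Int.cast_nonneg_iff (R := ℝ).1 this

end Vale.Agent.P283R.Wc
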