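import Vale.Agent.P283R.Wc.Gen70

/-!
# P283R, block WD: generators from a monomial decomposition, abstract form
-/

set_option linter.all false

open Set

noncomputable section

namespace Vale.Agent.P283R.Wc.G70

open Vale.Agent.P287D Vale.Agent.P297Z Vale.Agent.P283R.To
open Cx (Sp dg)
open Pq (lam Pg hm)
open Wd.G70

variable {K K₁ : Type} [Field K] [Algebra ℂ K] [Field K₁] [Algebra ℂ K₁] {k M c ρ : ℕ}

theorem dr_self {e : Fin k → Pl K} (ei : Function.Injective e) (i : Fin k) (δ : Fin k → ℤ) :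
    δ ⬝ᵥ Dr e (e i) = δ i := by
  rw [show Dr e (e i) = Pi.single i 1 from funext fun j => by
    simp [Dr, ei.eq_iff, Pi.single_apply, eq_comm], dotProduct_single_one]

theorem dr_off {e : Fin k → Pl K} {P : Pl K} (t : P ∉ range e) (δ : Fin k → ℤ) :
    δ ⬝ᵥ Dr e P = 0 := by
  rw [show Dr e P = 0 from funext fun j => if_neg fun z : P = e j => t ⟨j, z.symm⟩,
    dotProduct_zero]

/-- **generators from a monomial decomposition**: `x j` with exponents in `ℤ`, `z l` with exponents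
in `ℕ` -/
theorem gen_abs (φ : K₁ →ₐ[ℂ] K) {J : Type} [Fintype J] {x : J → K₁} {z : Fin M → K₁}
    (x0 : ∀ j, x j ≠ 0) (z0 : ∀ l, z l ≠ 0) {T : Set (Pl K)} {e : Fin k → Pl K}
    (ei : Function.Injective e) (eT : ∀ i, e i ∈ T)
    (ha : ∀ P ∈ T, P ∉ range e → (∀ j, P.ord (φ (x j)) = 0) ∧ ∀ l, 0 ≤ P.ord (φ (z l)))
    (dec : ∀ ψ : K₁, ψ ≠ 0 → (∀ P ∈ T, P ∉ range e → 0 ≤ P.ord (φ ψ)) →
      φ ψ ∈ Submodule.span ℂ {a | ∃ (ξ : J → ℤ) (τ : Fin M → ℕ),
        a = mon (fun j => φ (x j)) ξ * ∏ l, φ (z l) ^ τ l ∧ ∀ i, (e i).ord (φ ψ) ≤ (e i).ord a}) :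
    ∃ (E : ℕ) (s' : Fin E → K₁) (a' : Fin E → Fin k → ℤ), E = k + (Fintype.card J + 1) + M ∧
      (∀ j, s' j ≠ 0) ∧ (∀ j, (∃ ξ, φ (s' j) = mon (fun j => φ (x j)) ξ) ∨ ∃ l, s' j = z l) ∧
      ∀ δ ψ, ψ ≠ 0 → (ψ ∈ Sp s' a' δ ↔ ∀ P ∈ T, 0 ≤ P.ord (φ ψ) + δ ⬝ᵥ Dr e P) := by
  obtain ⟨E, s', a', hE, sm, key⟩ := sp_tor x0 fun i j => (e i).ord (φ (x j))
  have X0 : ∀ j, φ (x j) ≠ 0 := fun j => (map_ne_zero φ).2 (x0 j)
  have Z0 : ∀ l, φ (z l) ≠ 0 := fun l => (map_ne_zero φ).2 (z0 l)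
  have s0' : ∀ j, s' j ≠ 0 := fun j => (sm j).elim fun v hv => hv ▸ mon_ne x0 v
  have kS : ∀ m, Sp (fun j => φ (s' j)) a' m = Submodule.span ℂ (mon (fun j => φ (x j)) ''
      {n | ∀ i, 0 ≤ ∑ j, n j * (e i).ord (φ (x j)) + m i}) := fun m => by
    rw [sp_map, key, Submodule.map_span, image_image]
    simp only [mon, AlgHom.toLinearMap_apply, map_prod, map_zpow₀]
    rfl
  let b : Fin M → Fin k → ℤ := fun l i => -(e i).ord (φ (z l))
  have eq : (fun j => φ (Fin.append s' z j)) = Fin.append (fun j => φ (s' j)) fun l => φ (z l) :=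
    funext fun j => by refine Fin.addCases (fun i => ?_) (fun i => ?_) j <;> simp
  have T0 : ∀ j, Fin.append s' z j ≠ 0 := fun j => by
    refine Fin.addCases (fun i => ?_) (fun i => ?_) j
    · rw [Fin.append_left]
      exact s0' i
    · rw [Fin.append_right]
      exact z0 i
  refine ⟨_, Fin.append s' z, Fin.append a' b, by rw [hE], T0, fun j => ?_, fun δ ψ ψ0 => ?_⟩
  · refine Fin.addCases (fun i => .inl ?_) (fun l => .inr ⟨l, Fin.append_right _ _ _⟩) j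
    obtain ⟨v, hv⟩ := sm i
    refine ⟨v, ?_⟩
    rw [Fin.append_left, hv]
    simp only [mon, map_prod, map_zpow₀]
  have ψ0' : φ ψ ≠ 0 := (map_ne_zero φ).2 ψ0
  rw [← mem_map φ]
  refine ⟨fun q => sp_sec (pl := id) (w := (· ∈ T)) (Dr e) (fun j => (map_ne_zero φ).2 (T0 j))
    (fun j => ?_) q ψ0', fun q => ?_⟩
  · refine Fin.addCases (fun i => ?_) (fun l P a => ?_) j
    · rw [Fin.append_left, Fin.append_left]
      refine C3.G41.sec_span (pl := id) (T := T) (fun P => a' i ⬝ᵥ Dr e P) ?_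
        (kS _ ▸ sp_gen (fun j => φ (s' j)) a' i) ((map_ne_zero φ).2 (s0' i))
      rintro _ ⟨n, hn, rfl⟩ P a
      rw [id, ord_mon _ X0]
      by_cases t : P ∈ range e
      · obtain ⟨i', rfl⟩ := t
        rw [dr_self ei]
        exact hn i'
      · simp [dr_off t, (ha P a t).1]
    · rw [Fin.append_right, Fin.append_right, id]
      by_cases t : P ∈ range e
      · obtain ⟨i', rfl⟩ := t
        rw [dr_self ei]
        exact (add_neg_cancel _).ge
      · rw [dr_off t, add_zero]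
        exact (ha P a t).2 l
  rw [eq]
  refine Submodule.span_le.2 ?_ (dec ψ ψ0 fun P a t => by
    have := q P a
    rwa [dr_off t, add_zero] at this)
  rintro _ ⟨ξ, τ, rfl, h⟩
  suffices mm : mon (fun j => φ (x j)) ξ ∈ Sp (fun j => φ (s' j)) a' (δ - dg b τ) by
    have := sp_app (fun j => φ (s' j)) a' (fun l => φ (z l)) b mm τ
    rwa [sub_add_cancel] at this
  rw [kS]
  refine Submodule.subset_span ⟨ξ, fun i => ?_, rfl⟩
  have a1 := q _ (eT i)
  have a2 := h i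
  rw [dr_self ei] at a1
  rw [← mon_nat, Pl.ord_mul _ (mon_ne X0 _) (mon_ne Z0 _), ord_mon _ X0, ord_mon _ Z0] at a2
  simp only [Pi.sub_apply, dg, b, mul_neg, Finset.sum_neg_distrib]
  linarith

/-- the expansion of a polynomial in monomials -/
theorem poly (s : Fin c → K) (y : Fin ρ → K) {n : Pg c →₀ ℤ} (n0 : 0 ≤ n) :
    ∃ g : MvPolynomial (Fin c) ℂ, hm s y n 0 = MvPolynomial.aeval s g ∧
      hm s y n 0 ∈ Submodule.span ℂ {a | ∃ t ∈ g.support, a = ∏ i, s i ^ t i} := by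
  have e : hm s y n 0 = MvPolynomial.aeval s (n.prod fun p k => p.l ^ k.toNat) := by
    simp only [hm, mon, Pi.zero_apply, zpow_zero, Finset.prod_const_one, mul_one, Finsupp.prod,
      map_prod, map_pow]
    exact Finset.prod_congr rfl fun p _ => by
      rw [← zpow_natCast, Int.toNat_of_nonneg (n0 p), lam]
  refine ⟨_, e, ?_⟩
  rw [e]
  generalize (n.prod fun p k => p.l ^ k.toNat) = g
  nth_rewrite 2 [g.as_sum]
  rw [map_sum]
  refine sum_mem fun t ht => ?_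
  rw [MvPolynomial.aeval_monomial, ← Algebra.smul_def, Finsupp.prod_fintype _ _ fun _ => pow_zero _]
  exact Submodule.smul_mem _ _ (Submodule.subset_span ⟨t, ht, rfl⟩)

end Vale.Agent.P283R.Wc.G70
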