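import Vale.Agent.P283R.Wc.St
import Vale.Agent.P283R.Tp.Ram

/-!
# P283R, block WD, the last layer: few kept primes
-/

open Set

noncomputable section

namespace Vale.Agent.P283R.Wc

open Vale.Agent.P287D Vale.Agent.P283M Cx Cy
open Vale.Agent.P283R.To (mon)
open Pq (Fm Hm Hg tot Tv At cz lam mu fr Pg)
open Wd (Sb sb Wv Ps Wx MNW WT)

namespace M18

variable {K : Type} [Field K] [Algebra ℂ K] {c r ρ k : ℕ}

theorem dot {e : Fin k → Pl K} (h : Function.Injective e) (δ : Fin k → ℤ) (i : Fin k) :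
    δ ⬝ᵥ Dr e (e i) = δ i := by
  rw [dotProduct, Finset.sum_eq_single i (fun j _ a => by
    rw [Dr, if_neg fun b => a (h b).symm, mul_zero]) (fun a => (a (Finset.mem_univ i)).elim), Dr,
    if_pos rfl, mul_one]

theorem enum {A : Set (Pl K)} (h : A.Finite) :
    ∃ e : Fin A.ncard → Pl K, Function.Injective e ∧ range e = A := by
  have := h.to_subtype
  let e := Finite.equivFinOfCardEq (Nat.card_coe_set_eq A)
  refine ⟨Subtype.val ∘ e.symm, Subtype.val_injective.comp e.symm.injective, ?_⟩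
  rw [e.symm.surjective.range_comp, Subtype.range_coe]

/-- the product of the small coordinates -/
def eta (s : Fin c → K) (y : Fin r → K) : Sb (fr s y) := ∏ i, sb (fr s y) (Fin.natAdd c i)

theorem eta_eq (s : Fin c → K) (y : Fin r → K) (u : Fin ρ → K) :
    hm u (eta s y) 1 = ∏ j, Fin.append y u j := by
  rw [Fin.prod_univ_add, hm, eta, map_prod]
  simp only [mon, sb, fr, Fin.append_left, Fin.append_right, Pi.one_apply, zpow_one]
  rfl

theorem kap_eq {s : Fin c → K} {y : Fin r → K} {u : Fin ρ → K}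
    (h : D.Rat (fr s (Fin.append y u))) (P : Pl K) :
    kap (zt (sb (fr s y)) u) P = cz s (Fin.append y u) P + P.ord (hm u (eta s y) 1) := by
  obtain ⟨z, hz⟩ := Cb.kap_int (fr s (Fin.append y u)) P
  rw [Wd.zt_sb, Pq.B25.app_app, Wd.kap_cs, eta_eq, To.ord_prod P (Pq.B25.y_ne h), cz, hz,
    Int.floor_intCast]
  push_cast
  ring

theorem frm {s : Fin c → K} {y : Fin r → K} {u : Fin ρ → K}
    (h : D.Rat (fr s (Fin.append y u))) : Frm (zt (sb (fr s y)) u) := by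
  refine frm_of (Pq.B25.tower h).2.1.ff' ?_
  rw [Wd.zt_sb, Pq.B25.app_app]
  exact h.ind.comp _ (Fin.cast_injective _)

end M18

open M18 in
theorem mor18 : MOR := by
  intro car cmp gen pdx w1 w2 mnu B q ε q0 e0
  obtain ⟨W, m, W1, m2, H⟩ := mnu (5 * B + 2) q ε q0 e0
  refine ⟨W, m, m2, fun K _ _ c r ρ s y u T G κ Q ξ I J f b1 b2 sc ef b3 => ?_⟩
  have fm := sc.pk.fm
  have rt := fm.rat
  obtain ⟨e, ei, er⟩ := enum (car K c _ s _ T J fm).1
  obtain ⟨γ, g1, -, g2⟩ := cmp K c r ρ s y u T G rt sc.hg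
  obtain ⟨E, s', a', eb, gn⟩ := gen K c r ρ s y u T J κ f _ e fm sc.od sc.y1 ef ei er
  obtain ⟨π, pd, wid⟩ := pdx K c r ρ s y u T W I J _ e fm sc.wi
  obtain ⟨r1, x1, -⟩ := Pq.B25.tower rt
  have ke : ∀ i, e i ∈ Kt s (Fin.append y u) T J := fun i => er ▸ mem_range_self i
  have h0 : hm u (eta s y) 1 ≠ 0 := by
    rw [eta_eq]
    exact Finset.prod_ne_zero_iff.2 fun j _ => Pq.B25.y_ne rt j
  have o1 : ∀ P : Pl K, P.ord 1 = 0 := fun P => by simp
  obtain ⟨N, l, σ, α, f', dx⟩ := sc.pk.av 1 _ ∅ _ e _ one_ne_zero h0 finite_empty ei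
    (fun i => ⟨(ke i).1, notMem_empty _⟩) (fun P p n => by
      rw [er] at n
      rw [o1, add_zero]
      by_cases t : Tv s (Fin.append y u) P
      · exact ⟨fm.kt P p.1 t, (sc.pk.reg P p.1 t).2⟩
      · by_contra z
        exact n ⟨p.1, t, fun p' a b => z (sc.od.od P p.1 p' a b).2⟩) (frm rt) (kap_eq rt)
  rw [sdiff_empty, div_one, ← g1] at dx
  obtain ⟨n, n1, n2⟩ := H _ _ ρ E _ K N l _ (sb (fr s y)) u T _ σ α f' _ γ _ _ π s' a' Q
    (by omega) (by omega) (by omega) ⟨fun i => cz s (Fin.append y u) (e i), funext fun i => by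
      simp⟩ x1 ⟨frm_of r1.ff r1.ind, g2 sc.g0, dx, wid,
      w1 K c r ρ s y u T W q ε G κ Q ξ I J f _ N E e π σ α s' a' sc ei er pd dx.cox gn,
      w2 K c r ρ s y u T W q ε G κ Q ξ I J _ N e π σ α W1 sc ei er pd wid dx.cox⟩
  have z0 : ∏ j, s' j ^ n j ≠ 0 := Finset.prod_ne_zero_iff.2 fun j _ => pow_ne_zero _ (gn.ne j)
  have ez : ((∏ j, s' j ^ n j : Sb (fr s y)) : K) = ∏ j, (s' j : K) ^ n j := by push_cast; rfl
  have z1 : ∏ j, (s' j : K) ^ n j ≠ 0 := by
    rw [← ez]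
    exact fun a => z0 (Subtype.ext a)
  refine ⟨_, gn.mo n, fun P p => ?_, ?_⟩
  · obtain ⟨i, rfl⟩ : P ∈ range e := er.ge p
    have := (gn.sec _ _ z0).1 (Submodule.subset_span ⟨n, n1, rfl⟩) _ p.1
    rw [dot ei, ez] at this
    simp only [Pi.neg_apply, Pi.smul_apply, smul_eq_mul, o1, add_zero] at this
    omega
  · have g0 := sc.pk.g0
    have qm : (0 : ℝ) < (q * m : ℕ) := by
      have : 0 < q * m := Nat.mul_pos q0 (by omega)
      exact_mod_cast this
    have e1 : (hm u (eta s y) 1 ^ q * lv u γ) ^ m * ∏ j, algebraMap (Sb (fr s y)) K (s' j) ^ n j =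
        hm u (eta s y) 1 ^ (q * m) * (tot G ^ m * ∏ j, (s' j : K) ^ n j) := by
      rw [g1, mul_pow, ← pow_mul, mul_assoc]
      rfl
    rw [ld, kap_eq rt, e1, P297Z.Pl.ord_mul _ (pow_ne_zero _ h0)
      (mul_ne_zero (pow_ne_zero _ g0) z1), P297Z.Pl.ord_pow, sub_pos, div_lt_iff₀ qm] at n2
    have : ((Q.ord (tot G ^ m * ∏ j, (s' j : K) ^ n j) : ℤ) : ℝ) <
        (q * m * (cz s (Fin.append y u) Q + 1) : ℤ) := by
      push_cast at n2 ⊢
      linarith
    exact_mod_cast this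

end Vale.Agent.P283R.Wc
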