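import Vale.Agent.P283R.Wc.St
import Vale.Agent.P283R.Wd.Wv70
import Vale.Agent.P283R.Pq.All

/-!
# P283R, block WD, the last layer: the sections are free over the small ring
-/

open Set

noncomputable section

namespace Vale.Agent.P283R.Wc

open Vale.Agent.P287D Vale.Agent.P283M Vale.Agent.P297Z Cx Cy
open Vale.Agent.P283R.To (mon)
open Pq (Fm Hm Hg tot Tv At cz lam mu fr Pg)
open Wd (Sb sb Wv)

namespace W45

variable {K : Type} [Field K] [Algebra ℂ K] {c r ρ k : ℕ} {s : Fin c → K}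

theorem dr_self {e : Fin k → Pl K} (he : Function.Injective e) (δ : Fin k → ℤ) (i : Fin k) :
    δ ⬝ᵥ Dr e (e i) = δ i := by
  rw [dotProduct, Finset.sum_eq_single i (fun j _ h => by
    rw [Dr, if_neg fun q => h (he q).symm, mul_zero]) (by simp), Dr, if_pos rfl, mul_one]

theorem dr_not {e : Fin k → Pl K} {P : Pl K} (h : P ∉ range e) (δ : Fin k → ℤ) :
    δ ⬝ᵥ Dr e P = 0 :=
  Finset.sum_eq_zero fun j _ => by rw [Dr, if_neg fun q => h ⟨j, q.symm⟩, mul_zero]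

theorem at_ord {P : Pl K} {p : Pg c} (h : At s P (some p)) (h1 : mu s P (some p) = 1) (p' : Pg c) :
    (p' = p → P.ord (lam s p') = 1) ∧ (p' ≠ p → P.ord (lam s p') = 0) := by
  have := h.2 p'
  rw [h1, one_mul, Pq.od] at this
  exact ⟨fun e => by rw [this, e, Finsupp.single_eq_same],
    fun e => by rw [this, Finsupp.single_eq_of_ne e.symm]⟩

/-- the orders of the generators -/
theorem ord_th {y : Fin r → K} {u : Fin ρ → K} {π : Wd.Pg (Pg c) (Sb (fr s y)) k ρ}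
    (u0 : ∀ i, u i ≠ 0) (l0 : ∀ p, lam s p ≠ 0) (hl : ∀ p, (π.l p : K) = lam s p) (P : Pl K)
    (m : Fin ρ → ℤ) : P.ord (hm u (π.cc m) m) =
      ∑ p ∈ π.I, π.κ p m * P.ord (lam s p) + ∑ i, m i * P.ord (u i) := by
  have e : algebraMap (Sb (fr s y)) K (π.cc m) = ∏ p ∈ π.I, lam s p ^ π.κ p m := by
    rw [Wd.Pg.cc, map_prod]
    exact Finset.prod_congr rfl fun p _ => by rw [map_zpow₀, ← hl]; rfl
  have p0 : ∀ p ∈ π.I, lam s p ^ π.κ p m ≠ 0 := fun p _ => zpow_ne_zero _ (l0 p)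
  rw [hm, e, Pl.ord_mul _ (Finset.prod_ne_zero_iff.2 p0) (To.mon_ne u0 _), To.ord_mon P u0,
    P.ord_prod _ p0]
  simp only [Pl.ord_zpow]

end W45

open W45

/-- **W1R** -/
theorem w1r45 : W1R := by
  classical
  intro _ ind K _ _ c r ρ s y u T W q ε G κ Q ξ I J f k N E e π σ α s' a' sc he re pd cx gn
  have fm := sc.pk.fm
  obtain ⟨-, -, -, -, -, -, -, -, f9, -⟩ := Pq.fac c _ K s _ fm.rat
  have l0 := Pq.F60.lam_ne (Pq.F60.ind_s fm.rat.ind)
  have u0 : ∀ i, u i ≠ 0 := fun i => by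
    simpa using Pq.F60.y_ne fm.rat.ind (Fin.natAdd r i)
  have cl : ∀ P ∈ T, (∃ i, e i = P) ∨ (∀ δ, δ ⬝ᵥ Dr e P = 0) ∧
      (Tv s (Fin.append y u) P ∨ ∃ p ∉ J, At s P (some p)) := fun P hP => by
    refine or_iff_not_imp_left.2 fun h => ⟨dr_not h, or_iff_not_imp_left.2 fun t => ?_⟩
    by_contra! n
    exact h (show P ∈ range e from re ▸ ⟨hP, t, n⟩)
  have nk : ∀ P p, p ∉ J → At s P (some p) → ∀ δ, δ ⬝ᵥ Dr e P = 0 := fun P p t z =>
    dr_not fun h => (re ▸ h : P ∈ Kt s _ T J).2.2 p t z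
  have tv : ∀ P, Tv s (Fin.append y u) P → ∀ δ, δ ⬝ᵥ Dr e P = 0 := fun P t =>
    dr_not fun h => (re ▸ h : P ∈ Kt s _ T J).2.1 t
  have lz : ∀ p, π.l p ≠ 0 := fun p z => l0 p (by rw [← pd.hl, z]; rfl)
  have th := ord_th u0 l0 pd.hl
  have k1 : ∀ m i, (e i).ord (hm u (π.cc m) m) + π.al m i = 0 := fun m i => by
    simp only [th, Wd.Pg.al, Pi.add_apply, Finset.sum_apply, Pi.smul_apply, smul_eq_mul, pd.hb,
      pd.ha, mul_neg, Finset.sum_neg_distrib]
    ring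
  have k2 : ∀ m P, Tv s (Fin.append y u) P → P.ord (hm u (π.cc m) m) = 0 := fun m P t => by
    obtain ⟨a, b⟩ := (f9 P).1 t
    have b' : ∀ i, P.ord (u i) = 0 := fun i => by simpa using b (Fin.natAdd r i)
    simp only [th, show ∀ p, P.ord (lam s p) = 0 from a, b', mul_zero, Finset.sum_const_zero,
      add_zero]
  have k4 : ∀ m, ∀ P ∈ T, ∀ p ∉ J, At s P (some p) → P.ord (hm u (π.cc m) m) =
      (if p ∈ π.I then π.κ p m else 0) + (fun i => P.ord (u i)) ⬝ᵥ m := fun m P hP p t z => by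
    have a := at_ord z (sc.od.od P hP p t z).1
    rw [th, dotProduct_comm, ← Finset.sum_ite_eq' π.I p fun p => π.κ p m]
    refine congrArg₂ _ (Finset.sum_congr rfl fun p' _ => ?_) rfl
    split_ifs with b
    · rw [(a p').1 b, mul_one]
    · rw [(a p').2 b, mul_zero]
  have k3 : ∀ m, ∀ P ∈ T, ∀ p ∉ J, At s P (some p) → 0 ≤ P.ord (hm u (π.cc m) m) ∧
      ∃ P' ∈ T, At s P' (some p) ∧ P'.ord (hm u (π.cc m) m) = 0 := fun m P hP p t z => by
    by_cases b : p ∈ π.I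
    · obtain ⟨a1, v, hv, a2⟩ := pd.hk p b m
      obtain ⟨P', hP', z', rfl⟩ := (pd.hV p v).1 hv
      refine ⟨?_, P', hP', z', ?_⟩
      · rw [k4 m P hP p t z, if_pos b, add_comm]
        exact a1 _ ((pd.hV p _).2 ⟨P, hP, z, rfl⟩)
      · rw [k4 m P' hP' p t z', if_pos b, add_comm, a2]
    · have : P.ord (hm u (π.cc m) m) = 0 := by
        rw [k4 m P hP p t z, if_neg b, zero_add]
        exact Finset.sum_eq_zero fun i _ => mul_eq_zero_of_left
          (sc.u0 P hP p (fun h => b ((pd.hI p).2 ⟨h, t, P, hP, z⟩)) z i (u0 i)) _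
      exact ⟨this.ge, P, hP, z, this⟩
  refine ⟨gn.ne, fun p _ => ⟨lz p, (gn.sec _ _ (lz p)).2 fun P hP => ?_⟩, fun δ φ hφ => ?_,
    fun δ m z => ?_⟩
  · rw [pd.hl]
    obtain ⟨i, rfl⟩ | ⟨v, t | ⟨p', t, z⟩⟩ := cl P hP
    · rw [dr_self he, pd.hb, add_neg_cancel]
    · rw [v, ((f9 P).1 t).1 p, add_zero]
    · have a := at_ord z (sc.od.od P hP p' t z).1 p
      rw [v, add_zero]
      by_cases b : p = p'
      · rw [a.1 b]
        exact zero_le_one
      · rw [a.2 b]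
  · have := Wd.G70.cmp70 Pq.fac (fun i => sb (fr s y) (Fin.castAdd r i))
      (fun i => sb (fr s y) (Fin.natAdd c i)) (fun i => (Fin.append_left s y i).symm)
      (fun i => (Fin.append_left y u i).trans (Fin.append_right s y i).symm) fm
      (fun P => δ ⬝ᵥ Dr e P) (fun P _ t => tv P t δ) _ (cx.sec δ) hφ
    simpa only [Fin.append_right] using this
  rcases eq_or_ne z 0 with rfl | z0
  · rw [hm_zero, zero_div]
    exact iff_of_true (zero_mem _) (zero_mem _)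
  have c0 : π.cc m ≠ 0 := Finset.prod_ne_zero_iff.2 fun p _ => zpow_ne_zero _ (lz p)
  have z1 : z / π.cc m ≠ 0 := div_ne_zero z0 c0
  have eo : ∀ P : Pl K, P.ord (hm u z m) =
      P.ord ((z / π.cc m : Sb (fr s y)) : K) + P.ord (hm u (π.cc m) m) := fun P => by
    change _ = P.ord (algebraMap (Sb (fr s y)) K (z / π.cc m)) + _
    rw [← Pl.ord_mul _ ((map_ne_zero _).2 z1) (hm_ne u0 c0 _), hm, hm,
      ← mul_assoc, ← map_mul, div_mul_cancel₀ _ c0]
  rw [cx.sec _ _ (hm_ne u0 z0 _), gn.sec _ _ z1]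
  simp only [eo]
  refine ⟨fun H P hP => ?_, fun H P hP => ?_⟩
  · have a1 := H P hP
    obtain ⟨i, rfl⟩ | ⟨v, t | ⟨p, t, z⟩⟩ := cl P hP
    · have a2 := k1 m i
      rw [dr_self he] at a1 ⊢
      rw [Pi.sub_apply]
      omega
    · rw [v, k2 m P t, add_zero] at a1
      rwa [v]
    · obtain ⟨P', hP', z', o⟩ := (k3 m P hP p t z).2
      have a2 := H P' hP'
      rw [nk P' p t z', o, add_zero] at a2
      rwa [v, ind K c r ρ s y u T J κ fm sc.od sc.y1 p t P hP P' hP' z z' _ z1]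
  · have a1 := H P hP
    obtain ⟨i, rfl⟩ | ⟨v, t | ⟨p, t, z⟩⟩ := cl P hP
    · have a2 := k1 m i
      rw [dr_self he] at a1 ⊢
      rw [Pi.sub_apply] at a1
      omega
    · rw [v] at a1 ⊢
      rwa [k2 m P t, add_zero]
    · rw [v, add_zero] at a1 ⊢
      exact add_nonneg a1 (k3 m P hP p t z).1

end Vale.Agent.P283R.Wc
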