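import Vale.Agent.P283R.Wc.St
import Vale.Agent.P283R.Pq.Fac60

/-!
# P283R, block WD, the last layer: positivity along the closed orbit
-/

open Set

noncomputable section

namespace Vale.Agent.P283R.Wc

open Vale.Agent.P287D Vale.Agent.P283M Cx Cy Vale.Agent.P297Z
open Vale.Agent.P283R.To (mon)
open Pq (Fm Hm Hg tot Tv At cz lam mu fr Pg)
open Wd (Sb sb Wv Ps Wx MNW WT Pos)

namespace W63

variable {K : Type} [Field K] [Algebra ℂ K] {k N : ℕ} {e : Fin k → Pl K}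

theorem dot_self (he : Function.Injective e) (δ : Fin k → ℤ) (i : Fin k) :
    δ ⬝ᵥ Dr e (e i) = δ i := by
  simp [dotProduct, Dr, he.eq_iff]

theorem dot_not {P : Pl K} (h : P ∉ range e) (δ : Fin k → ℤ) : δ ⬝ᵥ Dr e P = 0 := by
  refine Finset.sum_eq_zero fun i _ => ?_
  rw [Dr, if_neg fun z => h ⟨i, z.symm⟩, mul_zero]

theorem pos_of {T : Set (Pl K)} {σ : Fin N → K} {α : Fin N → Fin k → ℤ} {Q : Pl K}
    {ξ : Pl K → ℝ} (he : Function.Injective e) (cx : Cox T (Dr e) σ α)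
    (reg : ∀ φ : K, φ ≠ 0 → (∀ P ∈ T, 0 ≤ P.ord φ) → ∀ P, 0 < ξ P → 0 < P.ord φ → 0 < Q.ord φ)
    {w : K} {δ : Fin k → ℤ} (w0 : w ≠ 0) (hδ : ∀ i, δ i = -(e i).ord w)
    (h0 : ∀ P ∈ T, P ∉ range e → 0 ≤ P.ord w) {P₀ : Pl K} (t : P₀ ∈ T) (n : P₀ ∉ range e)
    (x : 0 < ξ P₀) (o : 0 < P₀.ord w) : Pos σ α Q w δ := fun φ hφ φ0 => by
  have s := (cx.sec _ φ φ0).1 hφ
  refine reg _ (mul_ne_zero w0 φ0) (fun P hP => ?_) P₀ x ?_
  · have a := s P hP
    rw [Pl.ord_mul _ w0 φ0]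
    by_cases z : P ∈ range e
    · obtain ⟨i, rfl⟩ := z
      rw [dot_self he, Pi.neg_apply, hδ] at a
      omega
    · rw [dot_not z] at a
      have := h0 P hP z
      omega
  · have a := s P₀ t
    rw [dot_not n] at a
    rw [Pl.ord_mul _ w0 φ0]
    omega

end W63

open W63

/-- **W2R** -/
theorem w2r63 : W2R := by
  classical
  intro reg K _ _ c r ρ s y u T W q ε G κ Q ξ I J k N e π σ α W1 sc he rg pd wid cx
  have fm := sc.pk.fm
  obtain ⟨-, f2, -, -, -, -, -, -, f9, -⟩ := Pq.fac60 c (r + ρ) K s (Fin.append y u) fm.rat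
  have rq := fun φ => reg K c (r + ρ) s (Fin.append y u) T Q ξ φ fm sc.rep
  have l0 : ∀ p, lam s p ≠ 0 := fun p => by
    have := (f2 (Finsupp.single p 1) 0).1
    rw [Pq.hm, Finsupp.prod_single_index (by simp), zpow_one] at this
    exact left_ne_zero_of_mul this
  have u0 : ∀ j, u j ≠ 0 := fun j => by
    simpa using Pq.B25.y_ne fm.rat (Fin.natAdd r j)
  have out : ∀ P ∈ T, P ∉ range e → Tv s (Fin.append y u) P ∨ ∃ p ∉ J, At s P (some p) :=
    fun P hP z => by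
      by_contra! h
      exact z (rg ▸ ⟨hP, h.1, h.2⟩)
  have nin : ∀ P p, p ∉ J → At s P (some p) → P ∉ range e := fun P p a b z =>
    (rg ▸ z : P ∈ Kt s (Fin.append y u) T J).2.2 p a b
  have ol : ∀ P ∈ T, ∀ p ∉ J, At s P (some p) → ∀ p', P.ord (lam s p') = if p' = p then 1 else 0 :=
    fun P hP p a b p' => by
      rw [b.2 p', (sc.od.od P hP p a b).1, one_mul, Pq.od, Finsupp.single_apply]
  refine ⟨fun n hn => ?_, fun p hp => ?_, fun m m0 => ?_⟩
  · have n0 : ∏ j, σ j ^ n j ≠ 0 := Finset.prod_ne_zero_iff.2 fun j _ => pow_ne_zero _ (cx.ne j)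
    refine (rq _ n0 fun P hP => ?_).1
    simpa using (cx.sec 0 _ n0).1 (Submodule.subset_span ⟨n, hn, rfl⟩) P hP
  · obtain ⟨a, b, P₀, t, d⟩ := (pd.hI p).1 hp
    have el : algebraMap (Sb (fr s y)) K (π.l p) = lam s p := pd.hl p
    rw [el]
    refine pos_of he cx (fun φ f0 h => (rq φ f0 h).2) (l0 p) (pd.hb p) (fun P hP z => ?_) t
      (nin P₀ p b d) (sc.pos P₀ t p a b d) (by rw [ol P₀ t p b d, if_pos rfl]; exact one_pos)
    rcases out P hP z with h | ⟨p', a', b'⟩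
    · exact (((f9 P).1 h).1 p).ge
    · rw [ol P hP p' a' b']
      split_ifs <;> omega
  · have ew : hm u (π.cc m) m = (∏ p ∈ π.I, lam s p ^ π.κ p m) * mon u m := by
      rw [hm, Wd.Pg.cc, map_prod]
      congr 1
      refine Finset.prod_congr rfl fun p _ => ?_
      rw [map_zpow₀]
      exact congrArg (· ^ π.κ p m) (pd.hl p)
    have p0 : ∏ p ∈ π.I, lam s p ^ π.κ p m ≠ 0 :=
      Finset.prod_ne_zero_iff.2 fun p _ => zpow_ne_zero _ (l0 p)
    have ow : ∀ P : Pl K, P.ord (hm u (π.cc m) m) =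
        ∑ p ∈ π.I, π.κ p m * P.ord (lam s p) + ∑ j, m j * P.ord (u j) := fun P => by
      rw [ew, Pl.ord_mul _ p0 (To.mon_ne u0 m), To.ord_mon P u0,
        P.ord_prod _ fun p _ => zpow_ne_zero _ (l0 p)]
      simp only [Pl.ord_zpow]
    have oi : ∀ P ∈ T, ∀ p ∈ π.I, At s P (some p) → P.ord (hm u (π.cc m) m) =
        (fun i => P.ord (u i)) ⬝ᵥ m + π.κ p m := fun P hP p hp b => by
      rw [ow, Finset.sum_congr rfl fun p' _ => by rw [ol P hP p ((pd.hI p).1 hp).2.1 b p']]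
      simp only [mul_ite, mul_one, mul_zero, Finset.sum_ite_eq', if_pos hp, dotProduct]
      rw [add_comm, Finset.sum_congr rfl fun j _ => mul_comm _ _]
    obtain ⟨p, hp, v, hv, v', hv', ne⟩ := nonempty_of_ncard_ne_zero
      (Nat.one_le_iff_ne_zero.1 (W1.trans (wid.wid m m0)))
    obtain ⟨a, b, -⟩ := (pd.hI p).1 hp
    obtain ⟨P₀, t, d, o⟩ : ∃ P₀ ∈ T, At s P₀ (some p) ∧ 0 < P₀.ord (hm u (π.cc m) m) := by
      have k1 := wid.vk p hp v hv m
      have k2 := wid.vk p hp v' hv' m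
      obtain ⟨P, t, d, rfl⟩ := (pd.hV p v).1 hv
      obtain ⟨P', t', d', rfl⟩ := (pd.hV p v').1 hv'
      by_cases z : 0 < (fun i => P.ord (u i)) ⬝ᵥ m + π.κ p m
      · exact ⟨P, t, d, by rw [oi P t p hp d]; exact z⟩
      · exact ⟨P', t', d', by rw [oi P' t' p hp d']; omega⟩
    refine pos_of he cx (fun φ f0 h => (rq φ f0 h).2) (ew ▸ mul_ne_zero p0 (To.mon_ne u0 m))
      (fun i => ?_) (fun P hP z => ?_) t (nin P₀ p b d) (sc.pos P₀ t p a b d) o
    · rw [ow, Wd.Pg.al, Pi.add_apply, Finset.sum_apply, Finset.sum_apply, neg_add, add_comm,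
        ← Finset.sum_neg_distrib, ← Finset.sum_neg_distrib]
      congr 1
      · exact Finset.sum_congr rfl fun p _ => by simp [pd.hb]
      · exact Finset.sum_congr rfl fun j _ => by simp [pd.ha]
    · rcases out P hP z with h | ⟨p', a', b'⟩
      · obtain ⟨h1, h2⟩ := (f9 P).1 h
        have h3 : ∀ j, P.ord (u j) = 0 := fun j => by simpa using h2 (Fin.natAdd r j)
        rw [ow]
        simp [h1 _, h3]
      · by_cases z' : p' ∈ π.I
        · rw [oi P hP p' z' b']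
          exact wid.vk p' z' _ ((pd.hV p' _).2 ⟨P, hP, b', rfl⟩) m
        · have nI : p' ∉ I := fun h => z' ((pd.hI p').2 ⟨h, a', P, hP, b'⟩)
          rw [ow, Finset.sum_eq_zero fun p hp => by
            rw [ol P hP p' a' b', if_neg (ne_of_mem_of_not_mem hp z'), mul_zero],
            Finset.sum_eq_zero fun j _ => by rw [sc.u0 P hP p' nI b' j (u0 j), mul_zero]]
          rfl

end Vale.Agent.P283R.Wc
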