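import Vale.Agent.P283R.Wc.St
import Vale.Agent.P283R.Pq.All

/-!
# P283R, block WD, the last layer: the sections are free over the sections in the small field
-/

open Set

noncomputable section

namespace Vale.Agent.P283R.Wc

open Vale.Agent.P287D Vale.Agent.P283M Cx Cy Vale.Agent.P297Z
open Vale.Agent.P283R.To (mon mon_ne ord_mon)
open Pq (Fm Hm Hg tot Tv At cz lam mu fr Pg)
open Wd (Sb sb Wv)

namespace W31

variable {K : Type} [Field K] [Algebra ℂ K] {c k : ℕ} {s : Fin c → K} {e : Fin k → Pl K}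
  {P : Pl K}

theorem dr_self (he : Function.Injective e) (δ : Fin k → ℤ) (i : Fin k) :
    δ ⬝ᵥ Dr e (e i) = δ i := by
  simp [Dr, dotProduct, he.eq_iff]

theorem dr_not (h : P ∉ range e) (δ : Fin k → ℤ) : δ ⬝ᵥ Dr e P = 0 :=
  Finset.sum_eq_zero fun i _ => by
    rw [Dr, if_neg fun a => h ⟨i, a.symm⟩, mul_zero]

open Classical in
theorem ord_lam {p' : Pg c} (h : At s P (some p')) (p : Pg c) :
    P.ord (lam s p) = if p = p' then mu s P (some p') else 0 := by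
  rw [h.2 p, Pq.od, Finsupp.single_apply]
  split_ifs <;> simp

end W31

open W31 Classical in
theorem w1r31 : W1R := by
  intro cmp ind K _ _ c r ρ s y u T W q ε G₀ κ Q ξ I J f k N E e π σ α s' a' sc he re pd cx gn
  have fm := sc.pk.fm
  obtain ⟨-, -, -, -, -, -, -, -, tv, -⟩ := Pq.fac c (r + ρ) K s _ fm.rat
  have u0 : ∀ i, u i ≠ 0 := fun i => by
    simpa [fr] using fm.rat.ind.ne_zero (Fin.natAdd c (Fin.natAdd r i))
  have n1 : ∀ P, Tv s (Fin.append y u) P → P ∉ range e := fun P h a => (re ▸ a : P ∈ Kt _ _ _ _).2.1 h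
  have n2 : ∀ P, ∀ p ∉ J, At s P (some p) → P ∉ range e := fun P p hp h a =>
    (re ▸ a : P ∈ Kt _ _ _ _).2.2 p hp h
  have tri : ∀ P ∈ T, (∃ i, e i = P) ∨ Tv s (Fin.append y u) P ∨ ∃ p ∉ J, At s P (some p) :=
    fun P hP => by
      by_contra! h
      exact (re ▸ (⟨hP, h.2.1, h.2.2⟩ : P ∈ Kt _ _ _ _) : P ∈ range e).elim h.1
  have l0 : ∀ p ∈ π.I, lam s p ≠ 0 := fun p hp a => by
    obtain ⟨-, -, P, -, h⟩ := (pd.hI p).1 hp
    have := h.1
    simp [mu, a] at this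
  have l1 : ∀ p ∈ π.I, π.l p ≠ 0 := fun p hp a => l0 p hp (by rw [← pd.hl, a]; rfl)
  refine ⟨gn.ne, fun p hp => ⟨l1 p hp, (gn.sec _ _ (l1 p hp)).2 fun P hP => ?_⟩,
    fun δ φ hφ => ?_, fun δ m z => ?_⟩
  · rw [pd.hl]
    obtain ⟨i, rfl⟩ | h | ⟨p', hp', h⟩ := tri P hP
    · rw [dr_self he, pd.hb, add_neg_cancel]
    · rw [dr_not (n1 P h), ((tv P).1 h).1 p, add_zero]
    · rw [dr_not (n2 P p' hp' h), ord_lam h, add_zero]
      split_ifs
      exacts [h.1.le, le_rfl]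
  · by_cases φ0 : φ = 0
    · exact ⟨0, by simp [lv, φ0], fun m => by simp [hm]⟩
    have a := (cx.sec δ φ φ0).1 hφ
    obtain ⟨G, hG, rfl⟩ := fm.lau φ φ0 fun P hP h => by
      simpa [dr_not (n1 P h)] using a P hP
    obtain ⟨γ, b1, b2, -⟩ := cmp K c r ρ s y u T G fm.rat hG
    refine ⟨γ, b1, fun m => Submodule.span_le.2 (range_subset_iff.2 fun w => ?_) (b2 m)⟩
    by_cases g0 : G w = 0
    · rw [g0]; exact zero_mem _
    refine (cx.sec δ _ g0).2 fun P hP => ?_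
    by_cases h : Tv s (Fin.append y u) P
    · rw [dr_not (n1 P h), h w _ (hG w) g0, add_zero]
    · exact (a P hP).trans (add_le_add_left (fm.inv P hP h G hG w g0) _)
  by_cases z0 : z = 0
  · simp [z0, hm]
  have z1 : (z : K) ≠ 0 := fun a => z0 (Subtype.ext a)
  have c0 : π.cc m ≠ 0 := Finset.prod_ne_zero_iff.2 fun p hp => zpow_ne_zero _ (l1 p hp)
  have oA : ∀ P : Pl K, P.ord (hm u z m) = P.ord (z : K) + (fun i => P.ord (u i)) ⬝ᵥ m := fun P => by
    rw [dotProduct_comm]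
    exact (Pl.ord_mul _ z1 (mon_ne u0 m)).trans (congrArg _ (ord_mon P u0 m))
  have oB : ∀ P : Pl K, P.ord ((z / π.cc m : Sb (fr s y)) : K) =
      P.ord (z : K) - ∑ p ∈ π.I, π.κ p m * P.ord (lam s p) := fun P => by
    have : ((π.cc m : Sb (fr s y)) : K) = ∏ p ∈ π.I, lam s p ^ π.κ p m := by
      refine (map_prod (algebraMap (Sb (fr s y)) K) _ _).trans (Finset.prod_congr rfl fun p _ => ?_)
      rw [map_zpow₀, ← pd.hl]
      rfl
    rw [IntermediateField.coe_div, this, Pl.ord_div _ z1 (Finset.prod_ne_zero_iff.2 fun p hp =>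
      zpow_ne_zero _ (l0 p hp)), P.ord_prod _ fun p hp => zpow_ne_zero _ (l0 p hp)]
    simp only [Pl.ord_zpow]
  have key : ∀ P ∈ T, (P.ord (hm u z m) + δ ⬝ᵥ Dr e P =
      P.ord ((z / π.cc m : Sb (fr s y)) : K) + (δ - π.al m) ⬝ᵥ Dr e P) ∨
      ∃ p ∈ π.I, At s P (some p) := fun P hP => by
    rw [oA, oB]
    obtain ⟨i, rfl⟩ | h | ⟨p', hp', h⟩ := tri P hP
    · refine .inl ?_
      rw [dr_self he, dr_self he, dotProduct_comm]
      simp only [Wd.Pg.al, Pi.sub_apply, Pi.add_apply, Finset.sum_apply, Pi.smul_apply,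
        smul_eq_mul, pd.ha, pd.hb, mul_neg, Finset.sum_neg_distrib, dotProduct]
      ring
    · have a := ((tv P).1 h).1
      have b : ∀ i, P.ord (u i) = 0 := fun i => by simpa using ((tv P).1 h).2 (Fin.natAdd r i)
      refine .inl ?_
      rw [dr_not (n1 P h), dr_not (n1 P h), Finset.sum_eq_zero fun p _ => by rw [a p, mul_zero]]
      simp [b, dotProduct]
    · by_cases hI : p' ∈ π.I
      · exact .inr ⟨p', hI, h⟩
      have b : ∀ i, P.ord (u i) = 0 := fun i => sc.u0 P hP p'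
        (fun a => hI ((pd.hI p').2 ⟨a, hp', P, hP, h⟩)) h i (u0 i)
      refine .inl ?_
      rw [dr_not (n2 P p' hp' h), dr_not (n2 P p' hp' h), Finset.sum_eq_zero fun p hp => by
        rw [ord_lam h, if_neg fun a : p = p' => hI (a ▸ hp), mul_zero]]
      simp [b, dotProduct]
  have pg : ∀ P ∈ T, ∀ p ∈ π.I, At s P (some p) → P ∉ range e ∧
      P.ord ((z / π.cc m : Sb (fr s y)) : K) = P.ord (z : K) - π.κ p m := fun P hP p hp h => by
    have hJ := ((pd.hI p).1 hp).2.1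
    refine ⟨n2 P p hJ h, ?_⟩
    rw [oB, Finset.sum_eq_single_of_mem p hp fun p' _ ne => by rw [ord_lam h, if_neg ne, mul_zero],
      ord_lam h, if_pos rfl, (sc.od.od P hP p hJ h).1, mul_one]
  rw [cx.sec δ (hm u z m) (mul_ne_zero z1 (mon_ne u0 m)), gn.sec _ _ (div_ne_zero z0 c0)]
  refine ⟨fun H P hP => ?_, fun H P hP => ?_⟩
  · obtain a | ⟨p, hp, h⟩ := key P hP
    · exact a ▸ H P hP
    obtain ⟨v, hv, b⟩ := (pd.hk p hp m).2
    obtain ⟨P', hP', h', rfl⟩ := (pd.hV p v).1 hv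
    have := H P' hP'
    rw [oA, dr_not (pg P' hP' p hp h').1, ← ind K c r ρ s y u T J κ fm sc.od sc.y1 p
      ((pd.hI p).1 hp).2.1 P hP P' hP' h h' z z0] at this
    rw [(pg P hP p hp h).2, dr_not (pg P hP p hp h).1]
    omega
  · obtain a | ⟨p, hp, h⟩ := key P hP
    · exact a ▸ H P hP
    have b := (pd.hk p hp m).1 _ ((pd.hV p _).2 ⟨P, hP, h, rfl⟩)
    have := H P hP
    rw [(pg P hP p hp h).2, dr_not (pg P hP p hp h).1] at this
    rw [oA, dr_not (pg P hP p hp h).1]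
    omega

end Vale.Agent.P283R.Wc
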