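import Vale.Agent.P283R.Wc.St

/-!
# P283R, block WD, the last layer: the pages exist
-/

open Set

noncomputable section

namespace Vale.Agent.P283R.Wc

open Vale.Agent.P287D
open Pq (At lam fr Pg)
open Wd (Sb)

theorem lam_mem31 {K : Type} [Field K] [Algebra ℂ K] {c r : ℕ} (s : Fin c → K) (y : Fin r → K)
    (p : Pg c) : lam s p ∈ Sb (fr s y) := by
  have h : range s ⊆ range (fr s y) :=
    range_subset_iff.2 fun i => mem_range.2 ⟨Fin.castAdd r i, by simp [fr]⟩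
  refine IntermediateField.algebra_adjoin_le_adjoin ℂ _ (Algebra.adjoin_mono h ?_)
  rw [Algebra.adjoin_range_eq_range_aeval]
  exact ⟨p.l, rfl⟩

open Classical in
theorem pdx31 : PDX := by
  intro K _ _ c r ρ s y u T W I J k e fm wi
  let V : Pg c → Set (Fin ρ → ℤ) := fun p =>
    {v | ∃ P ∈ T, At s P (some p) ∧ v = fun i => P.ord (u i)}
  have fin : ∀ p, (V p).Finite := fun p =>
    ((fm.fin (lam s p)).image fun P i => P.ord (u i)).subset fun v ⟨P, a, b, e⟩ =>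
      ⟨P, ⟨a, b.1.ne'⟩, e.symm⟩
  have ex : ∀ p, (V p).Nonempty → ∀ m : Fin ρ → ℤ, ∃ n : ℤ,
      (∀ v ∈ V p, 0 ≤ v ⬝ᵥ m + n) ∧ ∃ v ∈ V p, v ⬝ᵥ m + n = 0 := fun p h m => by
    obtain ⟨v, hv, le⟩ := exists_min_image (V p) (· ⬝ᵥ m) (fin p) h
    exact ⟨-(v ⬝ᵥ m), fun w hw => by have := le w hw; omega, v, hv, by omega⟩
  choose! κ hκ using ex
  have ne : ∀ p ∈ I.filter fun p => p ∉ J ∧ ∃ P ∈ T, At s P (some p), (V p).Nonempty :=
    fun p hp => by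
      obtain ⟨-, -, P, a, b⟩ := Finset.mem_filter.1 hp
      exact ⟨_, P, a, b, rfl⟩
  refine ⟨⟨I.filter fun p => p ∉ J ∧ ∃ P ∈ T, At s P (some p), V, κ,
    fun p => ⟨lam s p, lam_mem31 s y p⟩, fun p i => -(e i).ord (lam s p),
    fun j i => -(e i).ord (u j)⟩, ⟨fun p => Finset.mem_filter, fun _ _ => Iff.rfl,
    fun p hp => hκ p (ne p hp), fun _ => rfl, fun _ _ => rfl, fun _ _ => rfl⟩,
    fun p hp => ?_, ne, fun p hp v hv ν => (hκ p (ne p hp) ν).1 v hv,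
    fun ν n0 => (wi ν n0).trans (ncard_le_ncard ?_ ((Finset.finite_toSet _).subset
      fun p hp => hp.1))⟩
  · obtain ⟨v, -, h⟩ := (hκ p (ne p hp) 0).2
    simpa using h
  · rintro p ⟨a, b, P, h1, P', h2, h3, h4, h5⟩
    exact ⟨Finset.mem_filter.2 ⟨a, b, P, h1, h3⟩, _, ⟨P, h1, h3, rfl⟩, _, ⟨P', h2, h4, rfl⟩, h5⟩

end Vale.Agent.P283R.Wc
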