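import Vale.Agent.P283R.Wc.St
import Vale.Agent.P283R.Pq.Fac60
import Vale.Agent.P283R.He.Doi

/-!
# P283R, block WD, the last layer: integer Helly
-/

open Set

noncomputable section

namespace Vale.Agent.P283R.Wc

open Vale.Agent.P287D Vale.Agent.P283M Cx Cy
open Vale.Agent.P283R.To (mon)
open Pq (Fm Hm Hg tot Tv At cz lam mu fr Pg)

namespace H62

/-- integer Helly on a lattice with any finite index type -/
theorem hel {A ι : Type} [Fintype A] (s : Finset ι) (ρ : ι → A → ℤ) (c : ι → ℤ) (p : A → ℤ)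
    (a : ℤ) (h : ∀ t ⊆ s, t.card ≤ 2 ^ Fintype.card A → ∃ m : A → ℤ,
      (∀ i ∈ t, c i ≤ ∑ k, m k * ρ i k) ∧ ∑ k, m k * p k < a) :
    ∃ m : A → ℤ, (∀ i ∈ s, c i ≤ ∑ k, m k * ρ i k) ∧ ∑ k, m k * p k < a := by
  let e := Fintype.equivFin A
  obtain ⟨m, h1, h2⟩ := He.helly_rays s (fun i k => (ρ i (e.symm k) : ℝ)) (fun i => c i)
    (fun k => p (e.symm k)) a fun t ht hc => by
      obtain ⟨m, h1, h2⟩ := h t ht hc
      refine ⟨fun k => m (e.symm k), fun i hi => ?_, ?_⟩
      · have := h1 i hi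
        rw [← Equiv.sum_comp e.symm] at this
        exact_mod_cast this
      · rw [← Equiv.sum_comp e.symm] at h2
        exact_mod_cast h2
  refine ⟨fun k => m (e k), fun i hi => ?_, ?_⟩
  · rw [← Equiv.sum_comp e.symm]
    simp only [Equiv.apply_symm_apply]
    exact_mod_cast h1 i hi
  · rw [← Equiv.sum_comp e.symm]
    simp only [Equiv.apply_symm_apply]
    exact_mod_cast h2

variable {K : Type} [Field K] [Algebra ℂ K] {c r ρ : ℕ}

/-- the visible functions -/
def zz (s : Fin c → K) (y : Fin r → K) (J : Finset (Pg c)) (f : K) : J ⊕ Fin r ⊕ Unit → K :=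
  Sum.elim (fun p => lam s p.1) (Sum.elim y fun _ => f)

theorem mo {s : Fin c → K} {y : Fin r → K} {J : Finset (Pg c)} {f φ : K} (h : Mo s y J f φ) :
    ∃ (b : ℂ) (l : J ⊕ Fin r ⊕ Unit → ℤ), b ≠ 0 ∧ φ = b • mon (zz s y J f) l := by
  obtain ⟨b, n, v, a, b0, hn, rfl⟩ := h
  refine ⟨b, Sum.elim (fun p => n p.1) (Sum.elim v fun _ => -a), b0, ?_⟩
  congr 1
  simp only [mon, zz, Fintype.prod_sum_type, Sum.elim_inl, Sum.elim_inr, Pq.hm,
    Finset.univ_unique, Finset.prod_singleton, zpow_neg, zpow_natCast]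
  rw [Finsupp.prod_of_support_subset n hn _ fun _ _ => zpow_zero _,
    Finset.prod_coe_sort J fun p => lam s p ^ n p, div_eq_mul_inv, mul_assoc]

theorem at_ne {s : Fin c → K} {P : Pl K} {p p' : Pg c} (h : At s P (some p)) (e : p' ≠ p) :
    P.ord (lam s p') = 0 := by
  rw [h.2 p']
  simp only [Pq.od]
  rw [Finsupp.single_eq_of_ne e.symm, mul_zero]

end H62

open H62

/-- **HLR** -/
theorem hlr62 : HLR := fun drp car mon' B q ε q0 ε0 => by
  classical
  obtain ⟨W, m, m2, hm⟩ := mon' (2 ^ (2 * B + 1) + (2 * B + 1)) q ε q0 ε0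
  refine ⟨W, m, m2, fun K _ _ c r ρ s y u T G κ Q ξ I J hd hJ S => ?_⟩
  have fm := S.pk.fm
  obtain ⟨fin, ⟨f, hf⟩, rp⟩ := car K c (r + ρ) s _ T J fm
  obtain ⟨ξ', t, r', tc, tK, ts, eo⟩ := rp Q ξ S.rep
  have l0 : ∀ p, lam s p ≠ 0 := Pq.F60.lam_ne (Pq.F60.ind_s fm.rat.ind)
  have y0 : ∀ j, y j ≠ 0 := fun j =>
    Fin.append_left y u j ▸ Pq.F60.y_ne fm.rat.ind (Fin.castAdd ρ j)
  have f0 : f ≠ 0 := by
    obtain ⟨E, -, rfl⟩ := hf
    exact Finset.prod_ne_zero_iff.2 fun p _ => l0 p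
  have z0 : ∀ a, zz s y J f a ≠ 0 := by
    rintro (p | j | _)
    exacts [l0 _, y0 _, f0]
  have g0 := S.pk.g0
  have cd : Fintype.card (J ⊕ Fin r ⊕ Unit) ≤ 2 * B + 1 := by
    simp only [Fintype.card_sum, Fintype.card_coe, Fintype.card_fin, Fintype.card_unique]
    omega
  obtain ⟨l, h1, h2⟩ := hel fin.toFinset (fun P a => P.ord (zz s y J f a)) (fun P => m * κ P)
    (fun a => Q.ord (zz s y J f a))
    (q * m * (cz s (Fin.append y u) Q + 1) - Q.ord (tot G ^ m)) fun t' ht' c' => by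
      let X := Kt s (Fin.append y u) T J \ ↑(t' ∪ t)
      have nx : ∀ P p, p ∉ J → At s P (some p) → P ∉ Kt s (Fin.append y u) T J :=
        fun P p hp a k => k.2.2 p hp a
      have ex : ∀ p ∉ J, ∀ P, At s P (some p) → (P ∈ T \ X ↔ P ∈ T) := fun p hp P a =>
        ⟨fun k => k.1, fun k => ⟨k, fun x => nx P p hp a x.1⟩⟩
      have kt : Kt s (Fin.append y u) (T \ X) J ⊆ ↑(t' ∪ t) := fun P k => by
        by_contra x
        exact k.1.2 ⟨⟨k.1.1, k.2⟩, x⟩
      have S' : Sc W q ε s y u (T \ X) G κ Q ξ' I J :=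
        { pk := drp K c (r + ρ) s _ T _ q ε _ κ X S.pk (fin.subset sdiff_subset)
            fun P k => k.1.2.1
          hg := S.hg
          g0 := S.g0
          rep := ⟨r'.nn, fun P k => ⟨⟨(r'.sup P k).1, fun x => x.2 (by
            rw [Finset.coe_union]
            exact Or.inr (ts P x.1 k))⟩, (r'.sup P k).2⟩, r'.eq⟩
          pos := fun P k p hp hp' a => by
            rw [eo P (nx P p hp' a)]
            exact S.pos P k.1 p hp hp' a
          od := ⟨S.od.co, fun P k => S.od.od P k.1⟩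
          y1 := fun P k => S.y1 P k.1
          u0 := fun P k => S.u0 P k.1
          wi := fun ν h => (S.wi ν h).trans_eq (by
            congr 1
            ext p
            refine and_congr_right fun _ => and_congr_right fun hp => ⟨?_, ?_⟩
            · rintro ⟨P, k, P', k', a, a', e⟩
              exact ⟨P, (ex p hp P a).2 k, P', (ex p hp P' a').2 k', a, a', e⟩
            · rintro ⟨P, k, P', k', a, a', e⟩
              exact ⟨P, k.1, P', k'.1, a, a', e⟩) }
      have hf' : Ef s (T \ X) J f := by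
        obtain ⟨E, e1, e2⟩ := hf
        refine ⟨E, fun p => (e1 p).trans (and_congr_right fun hp => not_congr ⟨?_, ?_⟩), e2⟩
        · rintro ⟨P, k, a⟩
          exact ⟨P, (ex p hp P a).2 k, a⟩
        · rintro ⟨P, k, a⟩
          exact ⟨P, k.1, a⟩
      have pw : 2 ^ Fintype.card (J ⊕ Fin r ⊕ Unit) ≤ 2 ^ (2 * B + 1) :=
        Nat.pow_le_pow_right (by norm_num) cd
      obtain ⟨φ, mφ, k1, k2⟩ := hm K c r ρ s y u (T \ X) G κ Q ξ' I J f (by omega) (by omega) S'
        hf' (by
          refine (ncard_le_ncard kt (Finset.finite_toSet _)).trans ?_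
          rw [ncard_coe_finset]
          have := Finset.card_union_le t' t
          omega)
      obtain ⟨b, l, b0, rfl⟩ := mo mφ
      refine ⟨l, fun P hP => ?_, ?_⟩
      · have k := fin.mem_toFinset.1 (ht' hP)
        have := k1 P ⟨⟨k.1, fun x => x.2 (by
          rw [Finset.coe_union]
          exact Or.inl hP)⟩, k.2⟩
        rwa [Pl.ord_smul _ b0, To.ord_mon P z0] at this
      · rw [mul_smul_comm, Pl.ord_smul _ b0,
          Q.ord_mul (pow_ne_zero _ g0) (To.mon_ne z0 l), To.ord_mon Q z0] at k2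
        linarith
  refine ⟨mon (zz s y J f) l, To.mon_ne z0 l, fun P hP => ?_, ?_⟩
  · rw [To.ord_mon P z0]
    by_cases k : P ∈ Kt s (Fin.append y u) T J
    · exact h1 P (fin.mem_toFinset.2 k)
    · have key : κ P = 0 ∧ ∀ a, P.ord (zz s y J f a) = 0 := by
        obtain ⟨E, e1, rfl⟩ := hf
        by_cases tv : Tv s (Fin.append y u) P
        · obtain ⟨hz, hy⟩ := ((Pq.fac60 c (r + ρ) K s _ fm.rat).2.2.2.2.2.2.2.2.1 P).1 tv
          refine ⟨(S.pk.reg P hP tv).2, ?_⟩
          rintro (p | j | _)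
          · exact hz p.1
          · have := hy (Fin.castAdd ρ j)
            rwa [Fin.append_left] at this
          · exact (Pl.ord_prod _ _ fun p _ => l0 p).trans (Finset.sum_eq_zero fun p _ => hz p)
        · have : ∃ p ∉ J, At s P (some p) := by
            by_contra x
            exact k ⟨hP, tv, fun p hp a => x ⟨p, hp, a⟩⟩
          obtain ⟨p, hp, a⟩ := this
          refine ⟨(S.od.od P hP p hp a).2.2, ?_⟩
          rintro (p' | j | _)
          · exact at_ne a fun e => hp (e ▸ p'.2)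
          · exact S.y1 P hP p hp a j (y0 j)
          · exact (Pl.ord_prod _ _ fun p _ => l0 p).trans (Finset.sum_eq_zero fun p' hp' =>
              at_ne a fun e => ((e1 p').1 hp').2 ⟨P, hP, e ▸ a⟩)
      simp only [key.1, key.2, mul_zero, Finset.sum_const_zero, le_refl]
  · rw [Q.ord_mul (pow_ne_zero _ g0) (To.mon_ne z0 l), To.ord_mon Q z0]
    linarith

end Vale.Agent.P283R.Wc
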