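import Vale.Agent.P283R.Wc.St
import Vale.Agent.P283R.Wd.Dxs36

/-!
# P283R, block WD: Cox data are available
-/

open Set

noncomputable section

namespace Vale.Agent.P283R.Wc

open Vale.Agent.P287D Vale.Agent.P283M Vale.Agent.P297Z Cx Cy

namespace A95

variable {K : Type} [Field K] [Algebra ℂ K] {k : ℕ} {e : Fin k → Pl K}

theorem dot_self (he : Function.Injective e) (δ : Fin k → ℤ) (i : Fin k) :
    δ ⬝ᵥ Dr e (e i) = δ i := by
  simp [dotProduct, Dr, he.eq_iff]

theorem dot_not {P : Pl K} (h : P ∉ range e) (δ : Fin k → ℤ) : δ ⬝ᵥ Dr e P = 0 :=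
  Finset.sum_eq_zero fun i _ => by rw [Dr, if_neg fun c => h ⟨i, c.symm⟩, mul_zero]

theorem eqv {T : Set (Pl K)} (he : Function.Injective e) {β : BD K} {h : K} (h0 : h ≠ 0)
    (z : Pl K → ℤ) (a : ∀ P ∈ T, β P = P.ord h + z P) (b : ∀ P ∈ T, P ∉ range e → z P = 0) :
    Eqv T (Dr e) β h fun i => z (e i) := ⟨h0, fun P p => by
  rw [a P p]
  by_cases c : P ∈ range e
  · obtain ⟨i, rfl⟩ := c
    rw [dot_self he]
  · rw [dot_not c, b P p c]⟩

end A95

open A95

/-- **AVR** -/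
theorem avr95 : AVR := by
  intro cox loc n K _ _ u Λ Γ Γ' dt q ε z g κ hq _ lk eff lc nf a h₀ X k e t a0 h0 fX he eT out ft
    kt
  obtain ⟨m, x, xi, xr⟩ := (fX.inter_of_left (Tt n u Λ)).fin_embedding.imp fun m h =>
    h.elim fun x h => (⟨x, x.injective, h⟩ : ∃ x : Fin m → Pl K, Function.Injective x ∧
      range x = X ∩ Tt n u Λ)
  have xm : ∀ i, x i ∈ X ∩ Tt n u Λ := fun i => xr ▸ mem_range_self i
  have ei : Function.Injective (Fin.append e x) :=
    Fin.append_injective_iff.2 ⟨he, xi, fun i j c => (eT i).2 (c ▸ (xm j).1)⟩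
  have sub : X ∩ Tt n u Λ ⊆ range (Fin.append e x) := by
    rw [← xr]
    rintro _ ⟨i, rfl⟩
    exact ⟨_, Fin.append_right e x i⟩
  have o : ∀ P ∈ Tt n u Λ, P ∉ range (Fin.append e x) → z P = 0 ∧ κ P + P.ord a = 0 :=
    fun P p c => out P ⟨p, fun w => c (sub ⟨w, p⟩)⟩ fun ⟨i, w⟩ =>
      c ⟨_, (Fin.append_left e x i).trans w⟩
  obtain ⟨j, j0, ej⟩ := lk.cn
  obtain ⟨N, σ, α, cx⟩ := cox n K u Λ Γ Γ' dt _ _ ei
    (Fin.addCases (fun i => by simpa using (eT i).1) fun i => by simpa using (xm i).2)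
    ⟨j, _, eqv ei j0 z (fun P _ => by rw [ej, add_comm]) fun P p c => (o P p c).1⟩
  obtain ⟨l, f, ci⟩ := Cg.exists_rel σ α
  have D := Wd.dxs hq dt nf lc Subset.rfl eff cx ci dt.ff ft (div_ne_zero j0 h0)
    (fun P => by rw [ej, kt, Pl.ord_div _ j0 h0]; push_cast; ring)
    (eqv ei h0 z (fun P _ => by rw [kt, add_comm]) fun P p c => (o P p c).1)
    (eqv ei (div_ne_zero lk.g0 a0) (fun P => κ P + P.ord a - q * z P) (fun P p => by
      have := lk.eq P p
      simp only [Pi.smul_apply, Pi.neg_apply, smul_eq_mul]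
      rw [Pl.ord_div _ lk.g0 a0]
      push_cast
      linarith) fun P p c => by rw [(o P p c).1, (o P p c).2, mul_zero, sub_zero])
  obtain ⟨l', f', D'⟩ := loc K _ _ k N l q ε t _ (X ∩ Tt n u Λ) _ (Fin.castAdd m) σ α f _ _ _ _ ei
    (Fin.castAdd_injective _ _) sub (Fin.addCases
      (fun i => by simpa using fun c _ => (eT i).2 c) fun i => by
        refine iff_of_true (by simpa using xm i) fun ⟨i', c⟩ => ?_
        have := congrArg Fin.val c
        simp only [Fin.val_castAdd, Fin.val_natAdd] at this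
        omega) D
  refine ⟨N, l', σ, fun i => α i ∘ Fin.castAdd m, f', ?_⟩
  rw [sdiff_inter_self_eq_sdiff, show Fin.append e x ∘ Fin.castAdd m = e from
    funext (Fin.append_left e x)] at D'
  refine (congrArg₂ _ ?_ ?_).mp D' <;> funext i <;> simp

end Vale.Agent.P283R.Wc
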