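import Vale.Agent.P283R.Wc.St
import Vale.Agent.P283R.Pq.All
import Vale.Agent.P283R.Wd.Hz66

/-!
# P283R, block WD, the last layer: Caratheodory
-/

open Set

noncomputable section

namespace Vale.Agent.P283R.Wc

open Vale.Agent.P287D Vale.Agent.P283M Vale.Agent.P297Z
open Pq (Fm Hm At lam mu fr Pg)

/-- **CAR** -/
theorem car13 : CAR := by
  intro K _ _ c ρ s y T J fm
  classical
  obtain ⟨f1, -, -, -, -, -, -, f8, f9, -⟩ := Pq.fac c ρ K s y fm.rat
  have fin : (Kt s y T J).Finite := by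
    refine (((finite_iUnion fun j => fm.fin (y j)).union (fm.fin (1 + ∑ i, s i))).union
      (J.finite_toSet.biUnion fun p _ => fm.fin (lam s p))).subset fun P ⟨a, b, e⟩ => ?_
    obtain h | ⟨_ | p, h⟩ := fm.pg P a
    · obtain ⟨j, hj⟩ := not_forall.1 fun k => b ((f9 P).2 ⟨h, k⟩)
      exact .inl (.inl (mem_iUnion.2 ⟨j, a, hj⟩))
    · exact .inl (.inr ⟨a, neg_ne_zero.1 h.1.ne'⟩)
    · exact .inr (mem_biUnion (by_contra fun k => e p k h : p ∈ J) ⟨a, h.1.ne'⟩)
  refine ⟨fin, ⟨_, fm.mis.toFinset.filter (· ∉ J), fun p => by simp [and_comm], rfl⟩,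
    fun Q ξ h => ?_⟩
  let S := fin.toFinset
  have hS : ∀ P, P ∈ S ↔ P ∈ Kt s y T J := fun P => fin.mem_toFinset
  let ν : Pl K → ℤ := fun P => if At s P none then mu s P none else 0
  have hν : ∀ P ∈ S, ∀ p ∉ J, P.ord (lam s p) = -(p.dg * ν P) := fun P hP p hp => by
    obtain ⟨a, -, e⟩ := (hS P).1 hP
    by_cases k : At s P none
    · rw [k.2 p]
      simp only [ν, if_pos k, Pq.od, Finsupp.sum_single_index, zero_mul]
      ring
    · simp only [ν, if_neg k, mul_zero, neg_zero]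
      obtain z | ⟨_ | p', z⟩ := fm.pg P a
      · exact z p
      · exact (k z).elim
      · have : p ≠ p' := by
          rintro rfl
          exact e p hp z
        have := z.2 p
        simp only [Pq.od, Finsupp.single_eq_of_ne (Ne.symm ‹_›), mul_zero] at this
        exact this
  let w : S → (Fin ρ ⊕ J ⊕ Unit → ℝ) := fun P => Sum.elim (fun j => P.1.ord (y j))
    (Sum.elim (fun p => P.1.ord (lam s p)) fun _ => ν P)
  obtain ⟨ζ, z0, z1, z2⟩ := Wd.Z66.car w _ (fun P => ξ P) le_rfl fun P => h.nn P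
  have z3 : ∀ i, ∑ P, (ζ P - ξ P) * w P i = 0 := fun i => by
    have := congrFun z1 i
    simp only [Finset.sum_apply, Pi.smul_apply, smul_eq_mul] at this
    simp only [sub_mul, Finset.sum_sub_distrib, this, sub_self]
  have z4 : ∀ p, ∑ P : S, (ζ P - ξ P) * (P.1.ord (lam s p) : ℝ) = 0 := fun p => by
    by_cases k : p ∈ J
    · exact z3 (.inr (.inl ⟨p, k⟩))
    · have := z3 (.inr (.inr ()))
      rw [← mul_zero (-(p.dg : ℝ)), ← this, Finset.mul_sum]
      refine Finset.sum_congr rfl fun P _ => ?_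
      rw [hν P P.2 p k]
      simp only [w, Sum.elim_inr]
      push_cast
      ring
  let ξ' : Pl K → ℝ := fun P => if k : P ∈ S then ζ ⟨P, k⟩ else ξ P
  have e1 : ∀ P : S, ξ' P = ζ P := fun P => dif_pos P.2
  have e2 : ∀ P ∉ S, ξ' P = ξ P := fun P k => dif_neg k
  refine ⟨ξ', (Finset.univ.filter fun P : S => ζ P ≠ 0).image (↑), ⟨fun P => ?_, fun P k => ?_,
    fun a ⟨a0, u, ha⟩ => ?_⟩, Finset.card_image_le.trans ?_, fun P k => ?_, fun P k n => ?_,
    fun P k => e2 P (mt (hS P).1 k)⟩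
  · by_cases k : P ∈ S
    · exact (e1 ⟨P, k⟩).symm ▸ z0 _
    · exact (e2 P k).symm ▸ h.nn P
  · by_cases m : P ∈ S
    · exact ⟨((hS P).1 m).1, ((hS P).1 m).2.1⟩
    · exact h.sup P (e2 P m ▸ k)
  · obtain ⟨b, n, b0, e⟩ := f1 u a ha a0
    have f : (Function.support fun P => ξ P * (P.ord a : ℝ)).Finite := (fm.fin a).subset fun P k =>
      ⟨(h.sup P (left_ne_zero_of_mul k)).1, Int.cast_ne_zero.1 (right_ne_zero_of_mul k)⟩
    have g : (Function.support fun P => (ξ' P - ξ P) * (P.ord a : ℝ)) ⊆ S := fun P k =>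
      by_contra fun m => k (by simp only [e2 P m, sub_self, zero_mul])
    have : ∑ᶠ P, (ξ' P - ξ P) * (P.ord a : ℝ) = 0 := by
      rw [finsum_eq_sum_of_support_subset _ g, ← Finset.sum_coe_sort]
      have o : ∀ P : Pl K, (P.ord a : ℝ) = ∑ j, u j * (P.ord (y j) : ℝ) +
          ∑ p ∈ n.support, n p * (P.ord (lam s p) : ℝ) := fun P => by
        rw [e, P.ord_smul b0, f8, Finsupp.sum]
        push_cast
        rfl
      simp only [e1, o, mul_add, Finset.mul_sum, Finset.sum_add_distrib]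
      rw [Finset.sum_comm, Finset.sum_comm (s := Finset.univ) (t := n.support),
        Finset.sum_eq_zero fun j _ => ?_, Finset.sum_eq_zero fun p _ => ?_, add_zero]
      · rw [← mul_zero (n p : ℝ), ← z4 p, Finset.mul_sum]
        exact Finset.sum_congr rfl fun _ _ => by ring
      · rw [← mul_zero (u j : ℝ), ← z3 (.inl j), Finset.mul_sum]
        exact Finset.sum_congr rfl fun _ _ => by simp only [w, Sum.elim_inl]; ring
    rw [← h.eq a ⟨a0, u, ha⟩, ← add_zero (∑ᶠ P, ξ P * _), ← this,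
      ← finsum_add_distrib f (S.finite_toSet.subset g)]
    exact finsum_congr fun P => by ring
  · exact z2.trans (by simp [add_assoc])
  · obtain ⟨P, -, rfl⟩ := Finset.mem_image.1 k
    exact (hS _).1 P.2
  · exact Finset.mem_image.2 ⟨⟨P, (hS P).2 k⟩, by simpa [← e1] using n, rfl⟩

end Vale.Agent.P283R.Wc
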