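import Vale.Agent.P283R.Wc.St
import Vale.Agent.P283R.Pq.All

/-!
# P283R, block WD, the last layer: the package of a pair
-/

open Set

noncomputable section

namespace Vale.Agent.P283R.Wc

open Vale.Agent.P287D Vale.Agent.P283M Cx Cy
open Pq (Fm Tv At cz)

/-- the family as a set of places -/
theorem fm_set {K ι : Type} [Field K] [Algebra ℂ K] {c ρ : ℕ} {s : Fin c → K} {y : Fin ρ → K}
    {w : ι → Prop} {P : ι → Pl K} {T : Set (Pl K)} (fm : Fm s y w P) (inj : Function.Injective P)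
    (h : ∀ R, R ∈ T ↔ ∃ E, w E ∧ P E = R) : Fm s y (· ∈ T) id := by
  have al : ∀ {p : Pl K → Prop}, (∀ E, w E → p (P E)) → ∀ R ∈ T, p R := fun k R r => by
    obtain ⟨E, e, rfl⟩ := (h R).1 r
    exact k E e
  have fi : ∀ {p : Pl K → Prop}, {E | w E ∧ p (P E)}.Finite → {R | R ∈ T ∧ p R}.Finite :=
    fun k => (k.image P).subset fun R r => by
      obtain ⟨E, e, rfl⟩ := (h R).1 r.1
      exact ⟨E, ⟨e, r.2⟩, rfl⟩
  refine ⟨fm.rat, fun a => fi (p := fun R => R.ord a ≠ 0) (fm.fin a),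
    fi (p := fun R => cz s y R ≠ 0) fm.finc, al fm.inv,
    fun φ φ0 k => fm.lau φ φ0 fun E e => k (P E) ((h _).2 ⟨E, e, rfl⟩), fun a ha => ?_,
    al fm.kt, fm.mis.subset fun p k ⟨E, e, t⟩ => k ⟨P E, (h _).2 ⟨E, e, rfl⟩, t⟩, al fm.pg⟩
  obtain ⟨φ, φ0, e⟩ := fm.eqn (a ∘ P) (ha.preimage inj.injOn)
  exact ⟨φ, φ0, al e⟩

theorem cdr46 : CDR := by
  classical
  intro avt n K _ _ u Λ Γ Γ' a q c ρ ε ι s y w P hq hε hn fm inj hT co lc nf
  replace fm := fm_set fm inj hT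
  obtain ⟨-, -, -, -, -, j, j0, ec⟩ := Pq.czr _ _ _ s y fm.rat
  rw [hn] at ec
  let m : Pl K → ℤ := fun R => ⌊q * dsc (n + 1) Γ R⌋
  have em : ∀ R ∈ Tt n u Λ, (m R : ℝ) = q * dsc (n + 1) Γ R := fun R r => by
    obtain ⟨k, e⟩ := (co R r).2
    simp only [m, e, Int.floor_intCast]
  have m0 : ∀ R ∈ Tt n u Λ, m R ≤ 0 := fun R r => Int.cast_nonpos (R := ℝ).1
    ((em R r).trans_le (mul_nonpos_of_nonneg_of_nonpos q.cast_nonneg (co R r).1))
  have fi : {R | R ∈ Tt n u Λ ∧ m R ≠ 0}.Finite :=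
    ((fm.finc.union (fm.fin j)).union (To.Cv.fin_car a a.dn.car)).subset fun R ⟨t, z⟩ => by
      by_contra k
      simp only [mem_union, mem_ofPred_eq, not_or, not_and, not_not, id] at k
      refine z ?_
      simp only [m, dsc, Pi.sub_apply, ec, k.1.1 t, k.1.2 t, k.2 t.2]
      simp
  obtain ⟨g, g0, eg⟩ := fm.eqn (fun R => if R ∈ Tt n u Λ then -m R else 0)
    (fi.subset fun R r => by
      have t : R ∈ Tt n u Λ := by_contra fun t => r (if_neg t)
      exact ⟨t, neg_ne_zero.1 ((if_pos t).symm.trans_ne r)⟩)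
  replace eg : ∀ R ∈ Tt n u Λ, Tv s y R → R.ord g = -m R := fun R r t =>
    (eg R r t).trans (if_pos r)
  have fk : {R | R ∈ Tt n u Λ ∧ q * cz s y R - m R - R.ord g ≠ 0}.Finite :=
    ((fm.finc.union fi).union (fm.fin g)).subset fun R ⟨t, z⟩ => by
      by_contra k
      simp only [mem_union, mem_ofPred_eq, not_or, not_and, not_not, id] at k
      exact z (by rw [k.1.1 t, k.1.2 t, k.2 t]; simp)
  have k0 : ∀ R ∈ Tt n u Λ, Tv s y R → q * cz s y R - m R - R.ord g = 0 := fun R r t => by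
    rw [eg R r t, show cz s y R = 0 from fm.kt R r t]
    simp
  have lk : Lk n q Γ (cz s y) (Tt n u Λ) g fun R => q * cz s y R - m R - R.ord g :=
    ⟨⟨j, j0, ec⟩, fm.finc, fk, g0, fun R r => by rw [← em R r]; push_cast; rfl⟩
  exact ⟨g, _, lk, hn, fm, g0, fun R r t => ⟨eg R r t ▸ neg_nonneg.2 (m0 R r), k0 R r t⟩, fk,
    fun R r => by linarith [m0 R r],
    Wd.hw_tier Pq.sums Pq.czr C3.conv hq hn a fm Function.injective_id (fun _ r => r) lc nf
      lk.eq k0, avt n K u Λ Γ Γ' a q ε _ g _ hq hε lk (fun R r => (co R r).1) lc nf⟩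

end Vale.Agent.P283R.Wc
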