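import Vale.Agent.P283R.Wc.St
import Vale.Agent.P283R.Pq.Sums80

/-!
# P283R, block WD, the last layer: the components over the small field
-/

open Set

noncomputable section

namespace Vale.Agent.P283R.Wc

open Vale.Agent.P287D Vale.Agent.P283M Cx Cy
open Vale.Agent.P283R.To (mon mon_ne)
open Pq (Hm Hg tot fr)
open Wd (Sb)

theorem cmp9 : CMP := by
  classical
  intro K _ _ c r ρ s y u T G hR hG
  have hu : ∀ j, u j ≠ 0 := fun j => by
    have := hR.1.ne_zero (Fin.natAdd c (Fin.natAdd r j))
    simpa only [fr, Fin.append_right] using this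
  have hy : ∀ i, y i ∈ Sb (fr s y) := fun i =>
    IntermediateField.subset_adjoin _ _ ⟨Fin.natAdd c i, by simp only [fr, Fin.append_right]⟩
  have hs : IntermediateField.adjoin ℂ (range s) ≤ Sb (fr s y) :=
    IntermediateField.adjoin.mono _ _ _ (by
      rintro _ ⟨i, rfl⟩
      exact ⟨Fin.castAdd r i, by simp only [fr, Fin.append_left]⟩)
  let tl : (Fin (r + ρ) → ℤ) → Fin ρ → ℤ := fun w j => w (Fin.natAdd r j)
  have mem : ∀ w, G w / mon u (tl w) ∈ Sb (fr s y) := fun w => by
    obtain ⟨φ, hφ, e⟩ := hG w
    have e1 : mon (Fin.append y u) w = mon y (fun i => w (Fin.castAdd ρ i)) * mon u (tl w) := by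
      simp only [mon, Fin.prod_univ_add, Fin.append_left, Fin.append_right, tl]
    rw [e, e1, ← mul_assoc, mul_div_cancel_right₀ _ (mon_ne hu _)]
    exact mul_mem (hs hφ) (prod_mem fun i _ => zpow_mem (hy i) _)
  let γ : (Fin ρ → ℤ) →₀ Sb (fr s y) :=
    ∑ w ∈ G.support, Finsupp.single (tl w) ⟨G w / mon u (tl w), mem w⟩
  have key : ∀ m, hm u (γ m) m = ∑ w ∈ G.support with tl w = m, G w := fun m => by
    simp only [γ, hm, Finsupp.finsetSum_apply, map_sum, Finset.sum_mul, Finset.sum_filter]
    refine Finset.sum_congr rfl fun w _ => ?_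
    by_cases h : tl w = m
    · subst h
      rw [Finsupp.single_eq_same, if_pos rfl]
      exact div_mul_cancel₀ _ (mon_ne hu _)
    · rw [Finsupp.single_apply, if_neg h, if_neg h, map_zero, zero_mul]
  refine ⟨γ, ?_, fun m => ?_, fun h0 h => ?_⟩
  · have sub : γ.support ⊆ G.support.image tl := fun m hm' => by
      by_contra hn
      refine Finsupp.mem_support_iff.1 hm' ?_
      simp only [γ, Finsupp.finsetSum_apply]
      refine Finset.sum_eq_zero fun w hw => ?_
      rw [Finsupp.single_apply, if_neg]
      exact fun e => hn (Finset.mem_image.2 ⟨w, hw, e⟩)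
    rw [lv, Finsupp.sum_of_support_subset _ sub _ fun m _ => by simp [hm]]
    simp only [key]
    exact Finset.sum_fiberwise_of_maps_to (fun w hw => Finset.mem_image_of_mem tl hw) _
  · rw [key]
    exact Submodule.sum_mem _ fun w _ => Submodule.subset_span ⟨w, rfl⟩
  · have k := key 0
    rw [h] at k
    have hF : Hg s (Fin.append y u) (G.filter fun w => tl w = 0) := fun w => by
      rw [Finsupp.filter_apply]
      split_ifs
      · exact hG w
      · exact ⟨0, zero_mem _, (zero_mul _).symm⟩
    refine (Pq.sums80 _ _ K s _ hR).1 _ hF (fun e => h0 ?_) ?_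
    · have := DFunLike.congr_fun e 0
      rwa [Finsupp.filter_apply_pos] at this
      rfl
    · rw [tot, Finsupp.sum, Finsupp.support_filter,
        Finset.sum_congr rfl fun w hw => Finsupp.filter_apply_pos _ _ (Finset.mem_filter.1 hw).2,
        ← k]
      simp [hm]

end Vale.Agent.P283R.Wc
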