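import Vale.Agent.P283R.Wc.St

/-!
# P283R, block WD, the last layer: change of the frame
-/

open Set

noncomputable section

namespace Vale.Agent.P283R.Wc

open Vale.Agent.P287D Vale.Agent.P283M
open Pq (Fm Hm Hg tot Tv At cz fr)

namespace E78

variable {K : Type} [Field K] [Algebra ℂ K] {c ρ ρ' : ℕ} {s : Fin c → K} {y : Fin ρ → K}
  {y' : Fin ρ' → K}

theorem hg (e : (Fin ρ → ℤ) ≃+ (Fin ρ' → ℤ)) (h : ∀ m, Hm s y' (e m) = Hm s y m)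
    {G : (Fin ρ → ℤ) →₀ K} (g : Hg s y G) :
    ∃ G', Hg s y' G' ∧ (∀ m, G' (e m) = G m) ∧ tot G' = tot G :=
  ⟨Finsupp.equivMapDomain e.toEquiv G, fun u => by
    obtain ⟨m, rfl⟩ := e.surjective u
    rw [h]
    simpa using g m, fun m => by simp, by simp [tot, Finsupp.sum_equivMapDomain]⟩

theorem sy (e : (Fin ρ → ℤ) ≃+ (Fin ρ' → ℤ)) (h : ∀ m, Hm s y' (e m) = Hm s y m) (m : Fin ρ' → ℤ) :
    Hm s y (e.symm m) = Hm s y' m := by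
  rw [← h, e.apply_symm_apply]

theorem tv (h : Eqf s y y') : Tv s y' = Tv s y := by
  obtain ⟨-, -, -, e, h⟩ := h
  funext P
  exact propext ⟨fun k u a ha => k (e u) a (h u ▸ ha), fun k u a ha => k _ a (sy e h u ▸ ha)⟩

theorem ho (h : Eqf s y y') : Ho s y' = Ho s y := by
  obtain ⟨-, -, -, e, h⟩ := h
  funext a
  exact propext (and_congr_right fun _ =>
    ⟨fun ⟨u, k⟩ => ⟨_, sy e h u ▸ k⟩, fun ⟨u, k⟩ => ⟨_, h u ▸ k⟩⟩)

theorem kt (h : Eqf s y y') : Kt s y' = Kt s y := by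
  funext T J
  rw [Kt, Kt, tv h]

theorem fm {ι : Type} {w : ι → Prop} {P : ι → Pl K} (h : Eqf s y y') (f : Fm s y w P) :
    Fm s y' w P := by
  have t := tv h
  obtain ⟨-, r, z, e, h⟩ := h
  have z' : cz s y' = cz s y := funext z
  refine ⟨r, f.fin, z' ▸ f.finc, fun E a b G g u u0 => ?_, fun φ φ0 k => ?_, t ▸ f.eqn,
    fun E a b => z' ▸ f.kt E a (t ▸ b), f.mis, f.pg⟩
  · obtain ⟨G', g1, g2, g3⟩ := hg e.symm (sy e h) g
    rw [← g3, ← g2]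
    exact f.inv E a (t ▸ b) G' g1 _ (g2 u ▸ u0)
  · obtain ⟨G, g, rfl⟩ := f.lau φ φ0 (t ▸ k)
    obtain ⟨G', g1, -, g3⟩ := hg e h g
    exact ⟨G', g1, g3.symm⟩

end E78

open E78 in
theorem eqf78 : EQF := fun K _ _ c ρ s y T ρ' y' h => by
  have t := tv h
  have z : cz s y' = cz s y := funext h.2.2.1
  refine ⟨fun d q ε g κ p => ⟨h.1 ▸ p.dim, fm h p.fm, p.g0, t ▸ p.reg, p.fin, z ▸ p.eff,
    fun Q ξ a b k => ?_, z ▸ p.av⟩, fun Q ξ r => ⟨r.nn, t ▸ r.sup, ho h ▸ r.eq⟩,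
    fun J κ o => ⟨o.co, z ▸ o.od⟩, fun G g g0 => ?_⟩
  · obtain ⟨-, -, -, e, h⟩ := h
    rw [z]
    exact p.hw Q ξ a (t ▸ b) fun u x hx => k (e u) x (h u ▸ hx)
  · obtain ⟨-, -, -, e, h⟩ := h
    obtain ⟨G', g1, g2, g3⟩ := hg e h g
    exact ⟨G', g1, by rwa [← map_zero e, g2], g3⟩

end Vale.Agent.P283R.Wc
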