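import Vale.Agent.P283R.Wc.St
import Vale.Agent.P283R.Pq.Gt68

/-!
# P283R, block WD, the last layer: Goldman and Tucker
-/

open Set

noncomputable section

namespace Vale.Agent.P283R.Wc

open Vale.Agent.P287D Vale.Agent.P283M
open Pq (Fm Hm Hg tot Tv At cz lam mu fr Pg)

/-- **GT** -/
theorem gt68 : GT := by
  intro K _ _ c ρ s y T G κ I Q X o ov
  have m : ∀ P : Pl K, (∀ r, At s P r → r ∈ Finset.insertNone I) ↔ ∀ p ∉ I, ¬ At s P (some p) :=
    fun P => ⟨fun h p a b => a (Finset.some_mem_insertNone.1 (h _ b)), fun h r b => by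
      cases r with
      | none => exact Finset.none_mem_insertNone
      | some p => exact Finset.some_mem_insertNone.2 (by_contra fun a => h p a b)⟩
  have k : ∀ r ∉ Finset.insertNone I, ∃ p ∉ I, r = some p := fun r h => by
    cases r with
    | none => exact (h Finset.none_mem_insertNone).elim
    | some p => exact ⟨p, fun a => h (Finset.some_mem_insertNone.2 a), rfl⟩
  obtain ⟨ζ, n, u, ζ0, hζ, h1, -, h2, h3, h4, -⟩ := Pq.gtp X (J := Finset.insertNone I)
    ⟨Finset.none_mem_insertNone, fun i p h => Finset.some_mem_insertNone.2 (o.od.co i p h),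
      fun r h => by
        obtain ⟨p, a, rfl⟩ := k r h
        exact o.ex p a, fun r h P hP b => by
        obtain ⟨p, a, rfl⟩ := k r h
        exact ⟨(o.od.od P hP p a b).1, fun j => o.y0 P hP p a b j (Pq.F60.y_ne X.rat.ind j),
          (o.od.od P hP p a b).2.1⟩⟩ Q fun _ a _ a0 h => ov a a0 h
  refine ⟨{P | P ∈ Kt s y T I ∧ ζ P = 0}, _, ζ, (Pq.fin_kept X (Finset.insertNone I)).subset
    fun P h => ⟨h.1.1, h.1.2.1, (m P).2 h.1.2.2⟩, fun P h => h.1,
    ((Pq.fac60 c ρ K s y X.rat).2.1 n u).1, h3,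
    fun P h => (h4 P h.1.1 h.1.2.1 ((m P).2 h.1.2.2)).1 h.2, h2,
    ⟨ζ0, fun P h => ⟨⟨(hζ P h).1, fun z => h z.2⟩, (hζ P h).2⟩, fun a ⟨a0, u, ha⟩ => h1 u a ha a0⟩,
    fun P h => (ζ0 P).lt_of_ne' fun z => h.1.2 ⟨⟨h.1.1, h.2⟩, z⟩⟩

end Vale.Agent.P283R.Wc
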