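import Vale.Agent.P283R.Wc.St
import Vale.Agent.P283R.Be2.All
import Vale.Agent.P283R.Hw.All
import Vale.Agent.P283R.Bh.Ver

/-!
# P283R, block WD, the last layer: the uniform form of the monomial theorem
-/

open Set

noncomputable section

namespace Vale.Agent.P283R.Wc

open Vale.Agent.P287D Vale.Agent.P283M Cx Cy Vale.Agent.P297Z
open Wd (Wv Ps Wx MNW)

namespace M60

section

variable {K : Type} [Field K] [Algebra ℂ K] {d k N E c q : ℕ} {ε : ℝ} {s : Fin N → K}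
  {a : Fin N → Fin k → ℤ} {s' : Fin E → K} {a' : Fin E → Fin k → ℤ}

theorem gen (s : Fin N → K) (a : Fin N → Fin k → ℤ) (j : Fin N) : s j ∈ Sp s a (a j) := by
  have := mon_mem s a (Pi.single j 1)
  rwa [dg_single, Finset.prod_eq_single j (fun l _ h => by simp [h]) (by simp),
    Pi.single_eq_same, pow_one] at this

/-- other generators of the same ring -/
theorem swap {y : Fin d → K} {T : Set (Pl K)} {D : Pl K → Fin k → ℤ}
    {f : Fin c → MvPolynomial (Fin N) ℂ} {h g : K} {δ b : Fin k → ℤ}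
    (X : Dx q ε y T D s a f h g δ b) (s0 : ∀ j, s' j ≠ 0) (e : ∀ e, Sp s a e = Sp s' a' e) :
    ∃ (c' : ℕ) (f' : Fin c' → MvPolynomial (Fin E) ℂ), Dx q ε y T D s' a' f' h g δ b := by
  obtain ⟨c', f', ci⟩ := Cg.exists_rel (s := s') (a := a')
  refine ⟨c', f', X.ff, X.fr, ⟨s0, by simpa only [e] using X.cox.sec, X.cox.fin,
    by simpa only [e] using X.cox.fr0, by simpa only [e] using X.cox.fr1⟩, ci, X.h0, X.g0,
    e b ▸ X.gs, X.eq, fun P ξ H => X.hw P ξ fun j => Tpb.wt s0 H (e _ ▸ gen s a j) (X.cox.ne j),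
    fun ξ H => X.lw ξ fun j => Tpy.deg H (e _ ▸ gen s a j) (X.cox.ne j)⟩

end

section

variable {K₁ K₀ : Type} [Field K₁] [Algebra ℂ K₁] [Field K₀] [Algebra ℂ K₀] [Algebra K₁ K₀]
  [IsScalarTower ℂ K₁ K₀] {k N E : ℕ} {ι : Type} {π : Wd.Pg ι K₁ k 0} {u : Fin 0 → K₀}
  {s : Fin N → K₀} {a : Fin N → Fin k → ℤ} {s' : Fin E → K₁} {a' : Fin E → Fin k → ℤ}

theorem sp_map {e : Fin k → ℤ} {φ : K₁} (h : φ ∈ Sp s' a' e) :
    algebraMap K₁ K₀ φ ∈ Sp (fun j => algebraMap K₁ K₀ (s' j)) a' e := by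
  induction h using Submodule.span_induction with
  | mem x hx =>
    obtain ⟨c, rfl, rfl⟩ := hx
    simpa only [map_prod, map_pow] using mon_mem (fun j => algebraMap K₁ K₀ (s' j)) a' c
  | zero => rw [map_zero]; exact zero_mem _
  | add x y _ _ hx hy => rw [map_add]; exact add_mem hx hy
  | smul r x _ hx =>
    rw [Algebra.smul_def, map_mul, ← IsScalarTower.algebraMap_apply, ← Algebra.smul_def]
    exact Submodule.smul_mem _ _ hx

/-- without directions the two rings are equal -/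
theorem sp_eq (w : Wv π u s a s' a') (k0 : ∀ p ∈ π.I, π.κ p 0 = 0) (e : Fin k → ℤ) :
    Sp s a e = Sp (fun j => algebraMap K₁ K₀ (s' j)) a' e := by
  have c1 : π.cc 0 = 1 := Finset.prod_eq_one fun p hp => by rw [k0 p hp, zpow_zero]
  have c2 : π.al 0 = 0 := by
    rw [Wd.Pg.al, Finset.sum_eq_zero (s := π.I) fun p hp => by rw [k0 p hp, zero_smul]]
    simp
  have fr : ∀ z : K₁, algebraMap K₁ K₀ z ∈ Sp s a e ↔ z ∈ Sp s' a' e := fun z => by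
    have := w.fre e 0 z
    rwa [hm_deg0, c1, c2, div_one, sub_zero] at this
  refine le_antisymm (fun φ h => ?_) (Submodule.span_le.2 ?_)
  · obtain ⟨ψ, rfl, k⟩ := w.cmp e φ h
    refine Submodule.sum_mem _ fun m _ => ?_
    have k' := k m
    obtain rfl : m = 0 := Subsingleton.elim _ _
    beta_reduce
    rw [hm_deg0] at k' ⊢
    exact sp_map ((fr _).1 k')
  · rintro _ ⟨c, rfl, rfl⟩
    have := (fr _).2 (mon_mem s' a' c)
    simp only [map_prod, map_pow] at this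
    exact this

end

/-- the statement for fixed numbers -/
def At (d k ρ E q : ℕ) (ε : ℝ) (W m : ℕ) : Prop :=
  ∀ (K₁ K₀ : Type) [Field K₁] [Algebra ℂ K₁] [Field K₀] [Algebra ℂ K₀]
    [Algebra K₁ K₀] [IsScalarTower ℂ K₁ K₀] (N c : ℕ) (ι : Type) (y : Fin d → K₁) (u : Fin ρ → K₀)
    T D (s : Fin N → K₀) a (f : Fin c → _) η γ δ b (π : Wd.Pg ι K₁ k ρ) (s' : Fin E → K₁) a' Q,
    (∃ e₀ : Fin k → ℤ, δ = (q : ℤ) • e₀ + b) → Ext K₁ d u →
    Wx W q ε y u T D s a f η γ δ b π s' a' Q →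
    MN q m (zt y u) (fun j => algebraMap K₁ K₀ (s' j)) a' (hm u η 1 ^ q * lv u γ) δ Q

theorem zero (d k E q : ℕ) (ε : ℝ) (hq : 0 < q) (hε : 0 < ε) :
    ∃ m, 2 ≤ m ∧ At d k 0 E q ε 0 m := by
  obtain ⟨m, m1, H⟩ := Bh.vg_of Be2.abp (d + 0) k E q ε hq hε
  obtain ⟨m', m1', H'⟩ := Hw.hg (d + 0) k E q ε hq hε
  refine ⟨m * m' * 2, Nat.le_mul_of_pos_left _ (Nat.mul_pos m1 m1'), ?_⟩
  rintro K₁ K₀ _ _ _ _ _ _ N c ι y u T D s a f η γ δ b π s' a' Q ⟨e₀, he⟩ - X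
  have e := sp_eq X.wv X.wid.k0
  have s0 : ∀ j, algebraMap K₁ K₀ (s' j) ≠ 0 := fun j => (map_ne_zero _).2 (X.wv.ne j)
  obtain ⟨c', f', Y⟩ := swap X.dx s0 e
  have h0 : hm u η 1 ≠ 0 := fun z => X.dx.h0 (by rw [z, zero_pow hq.ne', zero_mul])
  refine Tpy.mn_mul two_pos (Bh.gv_pf m1 m1' H H' K₀ _ T D _ a' _ δ Q
    ⟨⟨c', f', _, _, e₀, b, ⟨h0, fun P hP => ?_⟩, rfl, he, Y⟩, fun n hn =>
      Hl.ord_nn X.ps.ov (by rw [e, ← hn]; exact mon_mem _ _ n)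
        (Finset.prod_ne_zero_iff.2 fun j _ => pow_ne_zero _ (s0 j))⟩)
  have k := X.dx.eq P hP
  rw [he, P.ord_mul (pow_ne_zero _ h0) X.dx.g0, Pl.ord_pow, add_dotProduct, smul_dotProduct,
    smul_eq_mul] at k
  push_cast at k
  refine mul_left_cancel₀ (Nat.cast_ne_zero.2 hq.ne' : (q : ℝ) ≠ 0) ?_
  linarith

theorem At.mono {d k ρ E q : ℕ} {ε : ℝ} {W m W' m' : ℕ} (h : At d k ρ E q ε W m) (hW : W ≤ W')
    (m0 : 0 < m') (hm : m ∣ m') : At d k ρ E q ε W' m' := by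
  obtain ⟨l, rfl⟩ := hm
  intro K₁ K₀ _ _ _ _ _ _ N c ι y u T D s a f η γ δ b π s' a' Q he x X
  exact Tpy.mn_mul (Nat.pos_of_mul_pos_left m0) (h K₁ K₀ N c ι y u T D s a f η γ δ b π s' a' Q he x
    ⟨X.fr, X.g0, X.dx, ⟨X.wid.k0, X.wid.vn, X.wid.vk, fun ν n => hW.trans (X.wid.wid ν n)⟩, X.wv,
      X.ps⟩)

end M60

open M60 in
/-- **MUR** -/
theorem mur60 : MUR := by
  intro mnw B q ε hq hε
  have ex : ∀ d k ρ E : ℕ, ∃ W m, 2 ≤ m ∧ At d k ρ E q ε W m := fun d k ρ E => by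
    rcases ρ.eq_zero_or_pos with rfl | r
    · exact ⟨0, zero d k E q ε hq hε⟩
    · obtain ⟨W, m, m2, H⟩ := mnw d k ρ E q ε r hq hε
      refine ⟨W, m, m2, ?_⟩
      intro K₁ K₀ _ _ _ _ _ _ N c ι y u T D s a f η γ δ b π s' a' Q _ x X
      exact H K₁ K₀ N c ι y u T D s a f η γ δ b π s' a' Q x X
  choose W m m2 H using ex
  let J := Fin (B + 1) × Fin (B + 1) × Fin (B + 1) × Fin (B + 1)
  let W' : J → ℕ := fun x => W x.1 x.2.1 x.2.2.1 x.2.2.2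
  let m' : J → ℕ := fun x => m x.1 x.2.1 x.2.2.1 x.2.2.2
  have m0 : 0 < ∏ x, m' x := Finset.prod_pos fun x _ => two_pos.trans_le (m2 ..)
  refine ⟨∑ x, W' x + 1, ∏ x, m' x, Nat.le_add_left _ _, (m2 ..).trans
    (Nat.le_of_dvd m0 (Finset.dvd_prod_of_mem m' (Finset.mem_univ (0, 0, 0, 0)))), ?_⟩
  intro d k ρ E K₁ K₀ _ _ _ _ _ _ N c ι y u T D s a f η γ δ b π s' a' Q h1 h2 h3
  let x : J := (⟨d, by omega⟩, ⟨k, by omega⟩, ⟨ρ, by omega⟩, ⟨E, by omega⟩)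
  exact (H d k ρ E).mono (Nat.le_succ_of_le
    (Finset.single_le_sum (f := W') (fun _ _ => Nat.zero_le _) (Finset.mem_univ x))) m0
    (Finset.dvd_prod_of_mem m' (Finset.mem_univ x)) K₁ K₀ N c ι y u T D s a f η γ δ b π s' a' Q

end Vale.Agent.P283R.Wc
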