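import Vale.Agent.P283R.Wc.St
import Vale.Agent.P283R.Pq.All

/-!
# P283R, block WD, the last layer: the ordinary pages
-/

open Set

noncomputable section

namespace Vale.Agent.P283R.Wc

open Vale.Agent.P287D Vale.Agent.P283M Pq

theorem ord24 : ORD := by
  intro K _ _ c ρ s y T d q ε g κ x
  obtain ⟨G, hG, e⟩ := x.fm.lau g x.g0 fun P a b => (x.reg P a b).1
  obtain ⟨p1, p2, -⟩ := pol c
  have f1 : {p : Pg c | ∃ i : Fin c, p.l ∣ MvPolynomial.X i}.Finite := by
    rw [ofPred_exists]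
    refine finite_iUnion fun i => Set.Subsingleton.finite fun p a p' b => p2 _ _ (a.trans ?_)
    exact ((p1 p').1.irreducible.associated_of_dvd MvPolynomial.X_prime.irreducible b).symm.dvd
  let B : Set (Pl K) := ({P | P ∈ T ∧ cz s y P ≠ 0} ∪ {P | P ∈ T ∧ κ P ≠ 0}) ∪
    ((⋃ i, {P | P ∈ T ∧ P.ord (y i) ≠ 0}) ∪ ⋃ u ∈ G.support, {P | P ∈ T ∧ P.ord (G u) ≠ 0})
  have f2 : B.Finite := (x.fm.finc.union x.fin).union ((finite_iUnion fun i => x.fm.fin _).union
    (G.support.finite_toSet.biUnion fun u _ => x.fm.fin _))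
  have f3 : (⋃ P ∈ B, {p : Pg c | At s P (some p)}).Finite := f2.biUnion fun P _ =>
    Set.Subsingleton.finite fun p a p' b =>
      Option.some.inj ((fac c ρ K s y x.fm.rat).2.2.2.1 P _ _ a b)
  have f4 := x.fm.mis.union (f1.union f3)
  have nb : ∀ P p, p ∉ f4.toFinset → At s P (some p) → P ∉ B := fun P p n a b =>
    n (f4.mem_toFinset.2 (.inr (.inr (mem_biUnion b a))))
  refine ⟨G, f4.toFinset, e, hG, fun p n => by_contra fun z => n (f4.mem_toFinset.2 (.inl z)),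
    ⟨fun i p a => f4.mem_toFinset.2 (.inr (.inl ⟨i, a⟩)), fun P t p n a => ?_⟩,
    fun P t p n a i _ => by_contra fun z => nb P p n a (.inr (.inl (mem_iUnion.2 ⟨i, t, z⟩))),
    fun P t p n a u u0 => by_contra fun z => nb P p n a
      (.inr (.inr (mem_biUnion (Finsupp.mem_support_iff.2 u0) ⟨t, z⟩)))⟩
  have z1 : cz s y P = 0 := by_contra fun z => nb P p n a (.inl (.inl ⟨t, z⟩))
  have z2 := (czr c ρ K s y x.fm.rat).1 P p a
  have z3 := a.1
  exact ⟨by omega, z1, by_contra fun z => nb P p n a (.inl (.inr ⟨t, z⟩))⟩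

end Vale.Agent.P283R.Wc
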