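import Vale.Agent.P283R.Wc.St
import Vale.Agent.P283R.Pq.Hel67

/-!
# P283R, block WD, the last layer: few special pages
-/

open Set

noncomputable section

namespace Vale.Agent.P283R.Wc

open Vale.Agent.P287D Vale.Agent.P283M
open Pq (At Pg)

/-- **PAGE** -/
theorem page67 : PAGE := fun d q hq => ⟨q * (d + 1) * (d + 2) + 1 + d,
  fun K _ _ c ρ s y T ε G κ I Q ξ ε0 pk od rp ps => by
  classical
  obtain ⟨-, -, -, f4, f5, -⟩ := Pq.fac c ρ K s y pk.fm.rat
  obtain ⟨c1, -⟩ := Pq.czr c ρ K s y pk.fm.rat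
  obtain ⟨u, hu, J, -, h1, h2⟩ := Pq.hel67 pk.fm ε0.le hq od.hg pk.g0 pk.hw pk.fin
    (fun E a => by
      have := pk.eff E a
      show q * Pq.cz s y E ≤ E.ord _ + κ E
      omega) Q ξ rp.nn rp.sup fun u x hx x0 => (rp.eq x ⟨x0, u, hx⟩).le
  obtain ⟨f, hf⟩ : ∃ f : Fin c → Option (Pg c), ∀ i (p : Pg c), p.l ∣ MvPolynomial.X i →
      f i = some p := by
    refine ⟨fun i => if h : ∃ p : Pg c, p.l ∣ MvPolynomial.X i then some h.choose else none,
      fun i p h => ?_⟩
    have e : ∃ p : Pg c, p.l ∣ MvPolynomial.X i := ⟨p, h⟩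
    have x := (MvPolynomial.X_prime (R := ℂ) (i := i)).irreducible
    simp only [dif_pos e]
    exact congrArg some ((Pq.pol c).2.1 _ _ (e.choose_spec.trans
      (((Pq.pol c).1 p).1.irreducible.dvd_symm x h)))
  refine ⟨u, (J ∪ Finset.univ.image f).eraseNone, hu, (Finset.card_eraseNone_le _).trans
    ((Finset.card_union_le _ _).trans (Nat.add_le_add (h1.trans ?_)
      (Finset.card_image_le.trans ?_))), fun i p h => ?_, fun P a p n b => ?_⟩
  · have := pk.dim
    exact Nat.succ_le_succ (Nat.mul_le_mul (Nat.mul_le_mul_left _ (by omega)) (by omega))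
  · have := pk.dim
    simp only [Finset.card_univ, Fintype.card_fin]
    omega
  · simp only [Finset.mem_eraseNone, Finset.mem_union, Finset.mem_image]
    exact .inr ⟨i, Finset.mem_univ i, hf i p h⟩
  by_cases z : p ∈ I
  · obtain ⟨k1, k2⟩ := h2 P _ a b ⟨P, (ps P ⟨a, (f5 _ _ b).1, fun p' m k =>
      m (Option.some.inj (f4 _ _ _ b k) ▸ z)⟩).ne', b⟩ fun k =>
        n (Finset.mem_eraseNone.2 (Finset.mem_union_left _ k))
    have a1 := c1 _ p b
    have a2 := pk.eff P a
    have a3 := pk.fm.inv P a (f5 _ _ b).1 G od.hg u hu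
    simp only [id] at k1 k2 a3
    refine ⟨k1, le_antisymm (by nlinarith) (by omega), by omega⟩
  · obtain ⟨k1, k2, k3⟩ := od.od.od P a p z b
    exact ⟨k1, k2, by rw [k3, od.g0 P a p z b u hu, add_zero]⟩⟩

end Vale.Agent.P283R.Wc
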