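import Vale.Agent.P283R.Wc.St
import Vale.Agent.P283R.Pq.Fac60

/-!
# P283R, block WD, the last layer: the reduction to the wide state
-/

open Set

noncomputable section

namespace Vale.Agent.P283R.Wc

open Vale.Agent.P287D Vale.Agent.P283M Cx Cy
open Pq (Fm Hm Hg tot Tv At cz lam mu fr Pg)

/-- **PQR** -/
theorem pqr96 : PQR := by
  intro ord gt drp rpr page nrm spl eqf wid d q ε hq hε
  obtain ⟨C₀, hC₀⟩ := page d q hq
  choose W m m2 hW using fun j : ℕ => wid (j + d) q ε hq hε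
  obtain ⟨C, hC⟩ := spl W d C₀
  have mp : ∀ j, 0 < m j := fun j => lt_of_lt_of_le two_pos (m2 j)
  refine ⟨∏ j ∈ Finset.range (C + 1), m j, (m2 0).trans (Nat.le_of_dvd
    (Finset.prod_pos fun j _ => mp j) (Finset.dvd_prod_of_mem _ (by simp))), ?_⟩
  intro K _ _ c ρ s y T g κ Q pk ov
  obtain ⟨G, I, rfl, o⟩ := ord K c ρ s y T d q ε g κ pk
  obtain ⟨X, χ, ξ, Xf, XK, χ0, χT, χX, χQ, rep, pos⟩ := gt K c ρ s y T G κ I Q pk.fm o ov
  have pk1 := drp K c ρ s y T d q ε _ κ X pk Xf fun P h => (XK h).2.1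
  have o1 : Or s y (T \ X) G κ I := ⟨o.hg, fun p hp => by
      obtain ⟨P, a, b⟩ := o.ex p hp
      exact ⟨P, ⟨a, fun h => (XK h).2.2 p hp b⟩, b⟩,
    ⟨o.od.co, fun P h => o.od.od P h.1⟩, fun P h => o.y0 P h.1, fun P h => o.g0 P h.1⟩
  obtain ⟨u₀, J₀, G0, cJ₀, od₀⟩ := hC₀ K c ρ s y (T \ X) ε G κ I Q ξ hε pk1 o1 rep pos
  obtain ⟨G', hG', G'0, pk2, back⟩ := nrm K c ρ s y (T \ X) d q ε G κ u₀ pk1 o.hg G0
  obtain ⟨J, r, ρ', y', u, sub, cJ, eq, un1, un2, wi⟩ :=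
    hC K c ρ s y (T \ X) _ I J₀ pk.dim pk1.fm cJ₀ od₀ o1.y0
  obtain ⟨e1, e2, e3, e4⟩ := eqf K c ρ s y (T \ X) _ _ eq
  obtain ⟨G'', hG'', G''0, et⟩ := e4 G' hG' G'0
  have pk3 := e1 _ _ _ _ _ pk2
  have hd : c + r + ρ' = d := by
    have := pk3.dim
    omega
  obtain ⟨-, -, -, f4, f5, -⟩ := Pq.fac60 c ρ K s y pk.fm.rat
  have od := e3 _ _ od₀
  have h := hW J.card K c r ρ' s y' u (T \ X) G'' _ Q ξ I J (by omega) (by omega)
    ⟨by rw [hd, et]; exact pk3, hG'', G''0, e2 _ _ rep,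
      fun P hP p hp _ a => pos P ⟨hP, (f5 P _ a).1, fun p' hp' a' =>
        hp' (Option.some.inj (f4 P _ _ a a') ▸ hp)⟩,
      ⟨fun i p h => sub (od.co i p h), fun P hP p hp => od.od P hP p fun h => hp (sub h)⟩,
      un1, un2, wi⟩
  rw [et, funext eq.2.2.1] at h
  obtain ⟨m', hm'⟩ : m J.card ∣ ∏ j ∈ Finset.range (C + 1), m j :=
    Finset.dvd_prod_of_mem _ (by simpa using Nat.lt_succ_of_le cJ)
  have m'0 : 0 < m' := Nat.pos_of_ne_zero fun z =>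
    (Finset.prod_pos fun j _ => mp j).ne' (hm'.trans (by rw [z, mul_zero]))
  rw [hm']
  exact (rpr K q _ _ T _ κ Q pk.g0).1 X χ Xf χ0 χT χX χQ
    ((rpr K q _ _ (T \ X) _ κ Q pk.g0).2 m' m'0 (back _ _ _ h))

end Vale.Agent.P283R.Wc
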