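import Vale.Agent.P283R.Wc.St

/-!
# P283R, block WD, layer C, row RPR: the repair, and multiples
-/

open Set

namespace Vale.Agent.P283R.Wc

open Vale.Agent.P287D Vale.Agent.P297Z

/-- **RPR** -/
theorem rpr65 : RPR := by
  intro K _ _ q m z T g κ Q g0
  refine ⟨fun X χ fX c0 nn pos cQ ⟨φ, p0, h1, h2⟩ => ?_, fun m' hm ⟨φ, p0, h1, h2⟩ => ?_⟩
  · obtain ⟨N, hN⟩ := (fX.image fun P => (m * κ P - P.ord φ).toNat).bddAbove
    have e : ∀ (P : Pl K) (a : K), a ≠ 0 → P.ord (a * χ ^ N) = P.ord a + N * P.ord χ :=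
      fun P a a0 => by rw [Pl.ord_mul _ a0 (pow_ne_zero _ c0), Pl.ord_pow]
    refine ⟨φ * χ ^ N, mul_ne_zero p0 (pow_ne_zero _ c0), fun P hP => ?_, ?_⟩
    · rw [e P φ p0]
      by_cases c : P ∈ X
      · have a : (m * κ P - P.ord φ).toNat ≤ N := hN ⟨P, c, rfl⟩
        have b : (N : ℤ) * 1 ≤ N * P.ord χ :=
          mul_le_mul_of_nonneg_left (pos P c) (Int.natCast_nonneg N)
        omega
      · exact le_add_of_le_of_nonneg (h1 P ⟨hP, c⟩) (mul_nonneg (Int.natCast_nonneg N) (nn P hP))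
    · rwa [← mul_assoc, e Q _ (mul_ne_zero (pow_ne_zero _ g0) p0), cQ, mul_zero, add_zero]
  · have hm' : (0 : ℤ) < m' := by exact_mod_cast hm
    refine ⟨φ ^ m', pow_ne_zero _ p0, fun P hP => ?_, ?_⟩
    · rw [Pl.ord_pow, Nat.cast_mul, mul_comm (m : ℤ), mul_assoc]
      exact mul_le_mul_of_nonneg_left (h1 P hP) hm'.le
    · rw [pow_mul, ← mul_pow, Pl.ord_pow, Nat.cast_mul]
      exact (mul_lt_mul_of_pos_left h2 hm').trans_eq (by ring)

end Vale.Agent.P283R.Wc
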