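import Vale.Agent.P283R.Wc.St

/-!
# P283R, block WD, the last layer: the twist of the frame by invariant functions
-/

open Set
open Vale.Agent.P287D Vale.Agent.P283R.To
open Vale.Agent.P285N.Brep (jac Fr)

noncomputable section

namespace Vale.Agent.P283R.Wc

open Pq (Hm cz fr)

namespace T90

variable {K : Type} [Field K] [Algebra ℂ K] {c ρ : ℕ} {s : Fin c → K} {y φ : Fin ρ → K}

theorem kill (d : Derivation ℂ K K) (h : ∀ i, d (s i) = 0) {x : K}
    (hx : x ∈ IntermediateField.adjoin ℂ (range s)) : d x = 0 := by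
  induction hx using IntermediateField.adjoin_induction with
  | mem x hx => obtain ⟨i, rfl⟩ := hx; exact h i
  | algebraMap a => exact d.map_algebraMap a
  | add x z _ _ hx hz => rw [map_add, hx, hz, add_zero]
  | inv x _ hx => rw [Derivation.leibniz_inv, hx, smul_zero]
  | mul x z _ _ hx hz => rw [Derivation.leibniz, hx, hz, smul_zero, smul_zero, add_zero]

theorem jc {E : Fin (c + ρ) → Derivation ℂ K K} (hE : Fr (fr s y) E)
    (hφ : ∀ i, φ i ∈ IntermediateField.adjoin ℂ (range s)) :
    jac E (fr s fun i => φ i * y i) = ∏ i, φ i := by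
  classical
  have a1 : ∀ a j, E (Fin.castAdd ρ a) (s j) = if a = j then 1 else 0 := fun a j => by
    simpa [fr] using hE.dual (Fin.castAdd ρ a) (Fin.castAdd ρ j)
  have a2 : ∀ a j, E (Fin.natAdd c a) (s j) = 0 := fun a j => by
    have := hE.dual (Fin.natAdd c a) (Fin.castAdd ρ j)
    rwa [fr, Fin.append_left, if_neg fun h => by
      have := congrArg Fin.val h
      simp at this
      omega] at this
  have a3 : ∀ a j, E (Fin.natAdd c a) (y j) = if a = j then 1 else 0 := fun a j => by
    simpa [fr] using hE.dual (Fin.natAdd c a) (Fin.natAdd c j)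
  have e : (Matrix.of fun i j => E i (fr s (fun i => φ i * y i) j)).submatrix
      finSumFinEquiv finSumFinEquiv = Matrix.fromBlocks 1
        (Matrix.of fun a j => E (Fin.castAdd ρ a) (φ j * y j)) 0 (Matrix.diagonal φ) := by
    ext (a | a) (j | j)
    · simp [fr, a1, Matrix.one_apply]
    · simp [fr]
    · simp [fr, a2]
    · simp only [Matrix.submatrix_apply, finSumFinEquiv_apply_right, Matrix.of_apply, fr,
        Fin.append_right, Matrix.fromBlocks_apply₂₂, Derivation.leibniz, a3,
        kill _ (a2 a) (hφ j), Matrix.diagonal_apply, smul_eq_mul]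
      split_ifs with h
      · simp [h]
      · simp
  rw [jac, ← Matrix.det_submatrix_equiv_self finSumFinEquiv, e, Matrix.det_fromBlocks_zero₂₁,
    Matrix.det_one, one_mul, Matrix.det_diagonal]

end T90

open T90 in
/-- **TWS** -/
theorem tws90 : TWS := fun K _ _ c ρ s y _ φ h hφ => by
  obtain ⟨E, hE⟩ := Cb.fr_of h.ff h.ind
  have j := jc hE fun i => (hφ i).2
  have j0 : jac E (fr s fun i => φ i * y i) ≠ 0 := by
    rw [j]; exact Finset.prod_ne_zero_iff.2 fun i _ => (hφ i).1
  have y0 := Pq.B25.y_ne h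
  have pm : ∀ m : Fin ρ → ℤ, mon φ m ∈ IntermediateField.adjoin ℂ (range s) := fun m =>
    prod_mem fun i _ => zpow_mem (hφ i).2 _
  have p0 : ∀ m : Fin ρ → ℤ, mon φ m ≠ 0 := mon_ne fun i => (hφ i).1
  have mm : ∀ m : Fin ρ → ℤ, mon (fun i => φ i * y i) m = mon φ m * mon y m := fun m => by
    simp only [mon, mul_zpow, Finset.prod_mul_distrib]
  refine ⟨⟨(Cb.jac_ne_iff hE _).1 j0, fun x => ?_⟩, fun P => ?_, fun m => ?_⟩
  · have k : ∀ j, fr s (fun i => φ i * y i) j ∈
        IntermediateField.adjoin ℂ (range (fr s fun i => φ i * y i)) :=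
      fun j => IntermediateField.subset_adjoin _ _ ⟨j, rfl⟩
    have k1 : IntermediateField.adjoin ℂ (range s) ≤
        IntermediateField.adjoin ℂ (range (fr s fun i => φ i * y i)) :=
      IntermediateField.adjoin_le_iff.2 (by
        rintro _ ⟨j, rfl⟩
        simpa [fr] using k (Fin.castAdd ρ j))
    refine (IntermediateField.adjoin_le_iff.2 ?_ :
      IntermediateField.adjoin ℂ (range (fr s y)) ≤ _) (h.gen x)
    rintro _ ⟨j, rfl⟩
    refine Fin.addCases (fun j => ?_) (fun j => ?_) j
    · simpa [fr] using k (Fin.castAdd ρ j)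
    · have := mul_mem (inv_mem (k1 (hφ j).2)) (k (Fin.natAdd c j))
      rw [fr, Fin.append_right, inv_mul_cancel_left₀ (hφ j).1] at this
      simpa [fr] using this
  · obtain ⟨b, hb⟩ := Cb.kap_int (fr s y) P
    have e := congrFun (Cb.kap_chg hE j0) P
    rw [Pi.add_apply, hb, j, dv_apply, P.ord_prod _ fun i _ => (hφ i).1, ← Int.cast_add] at e
    rw [cz, cz, e, hb, Int.floor_intCast, Int.floor_intCast,
      Finset.sum_congr rfl fun i _ => P.ord_mul (hφ i).1 (y0 i), Finset.sum_add_distrib]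
    ring
  · ext a
    simp only [Hm, mem_ofPred_eq, mm]
    refine ⟨fun ⟨ψ, hψ, e⟩ => ⟨ψ * mon φ m, mul_mem hψ (pm m), by rw [e, mul_assoc]⟩,
      fun ⟨ψ, hψ, e⟩ => ⟨ψ * (mon φ m)⁻¹, mul_mem hψ (inv_mem (pm m)), ?_⟩⟩
    rw [e, mul_assoc, inv_mul_cancel_left₀ (p0 m)]

end Vale.Agent.P283R.Wc
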