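import Vale.Agent.P283R.Wc.St

/-!
# P283R, block WD, the last layer: the theorem on the tier
-/

open Set

noncomputable section

namespace Vale.Agent.P283R.Wc

open Vale.Agent.P287D Vale.Agent.P283M Cx Cy

/-- **WTR** -/
theorem wtr59 : WTR := by
  intro cd bk ov pq n q ε q0 e0
  obtain ⟨m, m2, H⟩ := pq (n + 1) q ε q0 e0
  refine ⟨q * m, Nat.mul_pos q0 (by omega), ?_⟩
  intro c ρ K _ _ ι u Λ Γ Γ' s y w P hn a fm inj hT hi lc nf
  obtain ⟨g, κ, lk, pk⟩ := cd n K u Λ Γ Γ' a q c ρ ε ι s y w P q0 e0 hn fm inj hT hi lc nf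
  exact bk n K u Λ Γ Γ' a q m _ g κ q0 m2 lk fun Q o =>
    H K c ρ s y _ g κ Q pk fun b b0 hb => ov n K u Λ Γ Γ' a Q b o b0 hb

end Vale.Agent.P283R.Wc
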