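import Vale.Agent.P283R.Wd.Ball96
import Vale.Agent.P283R.Wd.Ow46
import Vale.Agent.P283R.Pq.All
import Vale.Agent.P283R.Wc.Avr95
import Vale.Agent.P283R.Wc.Bkr64
import Vale.Agent.P283R.Wc.Car13
import Vale.Agent.P283R.Wc.Cdr46
import Vale.Agent.P283R.Wc.Cmp9
import Vale.Agent.P283R.Wc.Cox36
import Vale.Agent.P283R.Wc.Drp47
import Vale.Agent.P283R.Wc.Eqf78
import Vale.Agent.P283R.Wc.Gen70
import Vale.Agent.P283R.Wc.Gt68
import Vale.Agent.P283R.Wc.Hlr62
import Vale.Agent.P283R.Wc.Ind88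
import Vale.Agent.P283R.Wc.Loc24
import Vale.Agent.P283R.Wc.Mor18
import Vale.Agent.P283R.Wc.Mur60
import Vale.Agent.P283R.Wc.Nrm40
import Vale.Agent.P283R.Wc.Ord24
import Vale.Agent.P283R.Wc.Ovq22
import Vale.Agent.P283R.Wc.Page67
import Vale.Agent.P283R.Wc.Pdx31
import Vale.Agent.P283R.Wc.Pqr96
import Vale.Agent.P283R.Wc.Reg21
import Vale.Agent.P283R.Wc.Rpr65
import Vale.Agent.P283R.Wc.Spr25
import Vale.Agent.P283R.Wc.Tws90
import Vale.Agent.P283R.Wc.W1r21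
import Vale.Agent.P283R.Wc.W2r63
import Vale.Agent.P283R.Wc.Wtr59

/-!
# P283R, block WD: the closed statements
-/

namespace Vale.Agent.P283R.Wc

/-- **WID** -/
theorem wid : WID :=
  hlr62 drp47 car13 (mor18 car13 cmp9 gen70 pdx31 (w1r21 cmp9 ind88) (w2r63 reg21) (mur60 Wd.mnw))

/-- **PQ** -/
theorem pq : PQ := pqr96 ord24 gt68 drp47 rpr65 page67 nrm40 (spr25 tws90) eqf78 wid

/-- **WT** -/
theorem wt : Wd.WT := wtr59 (cdr46 (avr95 cox36 loc24)) (bkr64 cox36) ovq22 pq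

end Vale.Agent.P283R.Wc

namespace Vale.Agent.P283R.Sl

open Var

/-- torus actions with the quotient a projective space, or of complexity one -/
theorem on_wd : On fun _ _ Z f ω B z => FanoType f ω ∧ NefOver f (-logCan ω B) ∧
    ∃ W : Z.X.Opens, z.In W ∧
      (ProjectiveQuotient (pre f W) ∨ ∃ r, ComplexityOne (pre f W) r) :=
  Wd.on_wdw_of Pq.txt Wc.wt

/-- torus actions with the quotient a projective space -/
theorem on_pq : On fun _ _ Z f ω B z => FanoType f ω ∧ NefOver f (-logCan ω B) ∧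
    ∃ W : Z.X.Opens, z.In W ∧ ProjectiveQuotient (pre f W) :=
  Wd.on_pq_of Pq.txt Wc.wt

/-- torus actions of complexity one -/
theorem on_c1 : On fun d _ Z f ω B z => FanoType f ω ∧ NefOver f (-logCan ω B) ∧
    ∃ W : Z.X.Opens, z.In W ∧ ComplexityOne (pre f W) (d - 1) :=
  Wd.on_c1_of Pq.txt Wc.wt

end Vale.Agent.P283R.Sl
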