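import Vale.Agent.P283R.Wc.St
import Vale.Agent.P283R.Cx.Z0

/-!
# P283R, block WD: some of the divisors are removed
-/

open Set

noncomputable section

namespace Vale.Agent.P283R.Wc

open Vale.Agent.P287D Vale.Agent.P283M Cx Cy Vale.Agent.P297Z

namespace L42

variable {K : Type} [Field K] [Algebra ℂ K] {k k' N : ℕ} {e : Fin k → Pl K} {j : Fin k' → Fin k}

theorem dr_self (he : Function.Injective e) (δ : Fin k → ℤ) (i : Fin k) :
    δ ⬝ᵥ Dr e (e i) = δ i := by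
  simp [dotProduct, Dr, he.eq_iff]

theorem dr_off (δ : Fin k → ℤ) {P : Pl K} (h : P ∉ range e) : δ ⬝ᵥ Dr e P = 0 :=
  Finset.sum_eq_zero fun i _ => by rw [Dr, if_neg fun z => h ⟨i, z.symm⟩, mul_zero]

theorem dr_comp (he : Function.Injective e) (hj : Function.Injective j) (δ : Fin k → ℤ) {P : Pl K}
    (h : ∀ i, e i = P → i ∈ range j) : (δ ∘ j) ⬝ᵥ Dr (e ∘ j) P = δ ⬝ᵥ Dr e P := by
  by_cases z : P ∈ range e
  · obtain ⟨i, rfl⟩ := z
    obtain ⟨i, rfl⟩ := h i rfl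
    exact (dr_self (he.comp hj) _ i).trans (dr_self he δ (j i)).symm
  · rw [dr_off _ z, dr_off (e := e ∘ j) _ fun ⟨i, hi⟩ => z ⟨j i, hi⟩]

theorem sp_le (σ : Fin N → K) (α : Fin N → Fin k → ℤ) (j : Fin k' → Fin k) (δ : Fin k → ℤ) :
    Sp σ α δ ≤ Sp σ (fun i => α i ∘ j) (δ ∘ j) :=
  Submodule.span_mono (image_mono fun _ h => congrArg (· ∘ j) h)

theorem pa_ext (hj : Function.Injective j) (ξ : Fin k' → ℝ) (δ : Fin k → ℤ) :
    pa δ (Function.extend j ξ 0) = pa (δ ∘ j) ξ := by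
  rw [pa, pa]
  refine (Finset.sum_of_injOn j hj.injOn (fun _ _ => Finset.mem_univ _) (fun i _ h => ?_)
    fun i _ => by rw [hj.extend_apply]; rfl).symm
  rw [Function.extend_apply' _ _ _ fun ⟨a, ha⟩ => h ⟨a, by simp, ha⟩]
  simp

end L42

open L42

/-- **LOC** -/
theorem loc42 : LOC := by
  intro K _ _ d k k' N l q ε t T X e j σ α f h g δ b he hj hX hi x
  classical
  have cx := x.cox
  have dc : ∀ δ, ∀ P ∈ T \ X, (δ ∘ j) ⬝ᵥ Dr (e ∘ j) P = δ ⬝ᵥ Dr e P := fun δ P hP =>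
    dr_comp he hj δ fun i z => not_not.1 fun n => hP.2 (z ▸ (hi i).2 n)
  have ex : ∀ (δ' : Fin k' → ℤ) (o : Fin k → ℤ), Function.extend j δ' o ∘ j = δ' :=
    fun δ' o => Function.extend_comp hj _ _
  obtain ⟨l', f', ci⟩ := Cg.exists_rel σ fun i => α i ∘ j
  refine ⟨l', f', x.ff, x.fr, ⟨cx.ne, fun δ' φ φ0 => ⟨fun m P hP => ?_, fun m => ?_⟩,
    fun φ δ' => ?_, fun φ => ?_, fun δ' => ?_⟩, ci, x.h0, x.g0, sp_le _ _ _ _ x.gs,
    fun E hE => ?_, fun P ξ H => ?_, fun ξ H => ?_⟩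
  · obtain ⟨c, rfl, le⟩ := pickK cx.ne m φ0 P
    have := (cx.sec _ _ (Finset.prod_ne_zero_iff.2 fun i _ => pow_ne_zero _ (cx.ne i))).1
      (mon_mem σ α c) P hP.1
    rw [← dc _ P hP] at this
    exact this.trans (add_le_add le le_rfl)
  · rw [← ex δ' fun i => -(e i).ord φ]
    refine sp_le _ _ _ _ ((cx.sec _ _ φ0).2 fun P hP => ?_)
    by_cases z : P ∈ X
    · obtain ⟨i, rfl⟩ := hX z
      rw [dr_self he, Function.extend_apply' _ _ _ ((hi i).1 z), add_neg_cancel]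
    · rw [← dc _ P ⟨hP, z⟩, ex]
      exact m P ⟨hP, z⟩
  · refine (cx.fin φ (Function.extend j δ' 0)).subset fun P hP => ⟨hP.1.1, ?_⟩
    rw [← dc _ P hP.1, ex]
    exact hP.2
  · obtain ⟨δ₀, u, hu, v, hv, z⟩ := cx.fr0 φ
    exact ⟨_, u, sp_le _ _ _ _ hu, v, sp_le _ _ _ _ hv, z⟩
  · obtain ⟨δ₀, u, hu, v, hv, z⟩ := cx.fr1 (Function.extend j δ' 0)
    refine ⟨δ₀ ∘ j, u, ?_, v, sp_le _ _ _ _ hv, z⟩
    have := sp_le _ _ j _ hu
    rwa [Pi.add_comp, ex] at this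
  · rw [dc _ E hE, dc _ E hE]
    exact x.eq E hE.1
  · rw [← pa_ext hj]
    exact x.hw P _ fun i => pa_ext hj ξ (α i) ▸ H i
  · rw [← pa_ext hj, ← pa_ext hj]
    have := x.lw _ fun i => (H i).trans_eq (pa_ext hj ξ (α i)).symm
    exact ⟨this.1, fun z => this.2 fun z' => z (funext fun i => by
      simpa [hj.extend_apply] using congrFun z' (j i))⟩

end Vale.Agent.P283R.Wc
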