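import Vale.Agent.P283R.Wc.Avr95
import Vale.Agent.P283R.Wc.Bkr64
import Vale.Agent.P283R.Wc.Car13
import Vale.Agent.P283R.Wc.Cdr46
import Vale.Agent.P283R.Wc.Cmp9
import Vale.Agent.P283R.Wc.Cox36
import Vale.Agent.P283R.Wc.Drp47
import Vale.Agent.P283R.Wc.Eqf78
import Vale.Agent.P283R.Wc.Gen70
import Vale.Agent.P283R.Wc.Gt68
import Vale.Agent.P283R.Wc.Hlr62
import Vale.Agent.P283R.Wc.Ind88
import Vale.Agent.P283R.Wc.Loc42
import Vale.Agent.P283R.Wc.Mor18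
import Vale.Agent.P283R.Wc.Mur60
import Vale.Agent.P283R.Wc.Nrm40
import Vale.Agent.P283R.Wc.Ord24
import Vale.Agent.P283R.Wc.Ovq22
import Vale.Agent.P283R.Wc.Page67
import Vale.Agent.P283R.Wc.Pdx31
import Vale.Agent.P283R.Wc.Pqr96
import Vale.Agent.P283R.Wc.Reg21
import Vale.Agent.P283R.Wc.Rpr65
import Vale.Agent.P283R.Wc.Spr25
import Vale.Agent.P283R.Wc.Tws90
import Vale.Agent.P283R.Wc.W1r45
import Vale.Agent.P283R.Wc.W2r63
import Vale.Agent.P283R.Wc.Wtr59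
import Vale.Agent.P283R.Wd.Ball45
import Vale.Agent.P283R.Wd.Ow46

/-!
# P283R, block WD: the closed theorem
-/

namespace Vale.Agent.P283R

/-- **WT** -/
theorem Wc.wt45 : Wd.WT :=
  Wc.wtr59 (Wc.cdr46 (Wc.avr95 Wc.cox36 Wc.loc42)) (Wc.bkr64 Wc.cox36) Wc.ovq22
    (Wc.pqr96 Wc.ord24 Wc.gt68 Wc.drp47 Wc.rpr65 Wc.page67 Wc.nrm40 (Wc.spr25 Wc.tws90) Wc.eqf78
      (Wc.hlr62 Wc.drp47 Wc.car13 (Wc.mor18 Wc.car13 Wc.cmp9 Wc.gen70 Wc.pdx31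
        (Wc.w1r45 Wc.cmp9 Wc.ind88) (Wc.w2r63 Wc.reg21) (Wc.mur60 Wd.mnw45))))

namespace Sl

open Var

/-- torus actions with the quotient `ℙ^c`, or of complexity one -/
theorem on_wd45 : On fun _ _ _ f ω B z => FanoType f ω ∧ NefOver f (-logCan ω B) ∧
    ∃ W, z.In W ∧ (ProjectiveQuotient (pre f W) ∨ ∃ r, ComplexityOne (pre f W) r) :=
  Wd.on_wdw_of Pq.txt Wc.wt45

/-- torus actions with the quotient `ℙ^c` -/
theorem on_pq45 : On fun _ _ _ f ω B z => FanoType f ω ∧ NefOver f (-logCan ω B) ∧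
    ∃ W, z.In W ∧ ProjectiveQuotient (pre f W) :=
  Wd.on_pq_of Pq.txt Wc.wt45

end Sl

end Vale.Agent.P283R
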