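import Vale.Agent.P283R.Wc.St

/-!
# P283R, block WD: change of the frame
-/

open Set

noncomputable section

namespace Vale.Agent.P283R.Wc

open Vale.Agent.P287D
open Pq (Fm Hm Hg tot Tv At cz lam mu fr Pg)

namespace E27

variable {K : Type} [Field K] [Algebra ℂ K] {c ρ ρ' : ℕ} {s : Fin c → K} {y : Fin ρ → K}
  {y' : Fin ρ' → K} {e : (Fin ρ → ℤ) ≃+ (Fin ρ' → ℤ)}

theorem all (h : ∀ m, Hm s y' (e m) = Hm s y m) {p : K → Prop} :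
    (∀ u, ∀ a ∈ Hm s y' u, p a) ↔ ∀ u, ∀ a ∈ Hm s y u, p a :=
  e.surjective.forall.trans (forall_congr' fun u => by rw [h])

theorem tv (h : ∀ m, Hm s y' (e m) = Hm s y m) (P : Pl K) : Tv s y' P ↔ Tv s y P := all h

theorem symm (h : ∀ m, Hm s y' (e m) = Hm s y m) (m : Fin ρ' → ℤ) :
    Hm s y (e.symm m) = Hm s y' m := by rw [← h, e.apply_symm_apply]

theorem tr (h : ∀ m, Hm s y' (e m) = Hm s y m) {G : (Fin ρ → ℤ) →₀ K} (hG : Hg s y G) :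
    ∃ G', Hg s y' G' ∧ tot G' = tot G ∧ ∀ u, G' (e u) = G u :=
  ⟨G.equivMapDomain e.toEquiv, fun u => by
    rw [Finsupp.equivMapDomain_apply, ← symm h]
    exact hG _, Finsupp.sum_equivMapDomain _ _ _, fun u => by simp⟩

end E27

open E27 in
theorem eqf27 : EQF := fun K _ _ c ρ s y T ρ' y' ⟨hρ, rat, hc, e, h⟩ => by
  have hc' : cz s y' = cz s y := funext hc
  refine ⟨fun d q ε g κ k => ⟨hρ ▸ k.dim, ⟨rat, k.fm.fin, hc' ▸ k.fm.finc, ?_, ?_, ?_, ?_,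
    k.fm.mis, k.fm.pg⟩, k.g0, fun P hP t => k.reg P hP ((tv h P).1 t), k.fin, hc' ▸ k.eff, ?_,
    hc' ▸ k.av⟩, fun Q ξ k => ⟨k.nn, fun P n => ⟨(k.sup P n).1, mt (tv h P).1 (k.sup P n).2⟩,
      fun a ⟨a0, u, hu⟩ => k.eq a ⟨a0, _, (symm h u).symm ▸ hu⟩⟩,
    fun J κ k => ⟨k.co, hc' ▸ k.od⟩, fun G hG G0 => ?_⟩
  · intro E w t G hG u ne
    obtain ⟨G', a, b, c⟩ := tr (symm h) hG
    rw [← b, ← c]
    exact k.fm.inv E w (mt (tv h _).2 t) G' a _ (by rwa [c])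
  · intro φ φ0 t
    obtain ⟨G, hG, rfl⟩ := k.fm.lau φ φ0 fun E w v => t E w ((tv h _).2 v)
    obtain ⟨G', a, b, -⟩ := tr h hG
    exact ⟨G', a, b.symm⟩
  · intro a ha
    obtain ⟨φ, φ0, t⟩ := k.fm.eqn a ha
    exact ⟨φ, φ0, fun E w v => t E w ((tv h _).1 v)⟩
  · exact fun E w v => (hc _).trans (k.fm.kt E w ((tv h _).1 v))
  · intro Q ξ a b t
    rw [hc]
    exact k.hw Q ξ a (fun E n => ⟨(b E n).1, mt (tv h _).2 (b E n).2⟩) ((all h).1 t)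
  · obtain ⟨G', a, b, c⟩ := tr h hG
    exact ⟨G', a, by rwa [← map_zero e, c], b⟩

end Vale.Agent.P283R.Wc
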