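import Vale.Agent.P283R.Wc.St
import Vale.Agent.P283R.Pq.Fac60
import Vale.Agent.P283R.He.Doi

/-!
# P283R, block WD, the last layer: the row `HLR`
-/

open Set

noncomputable section

namespace Vale.Agent.P283R.Wc

open Vale.Agent.P287D Vale.Agent.P283M Vale.Agent.P297Z
open Vale.Agent.P283R.To (mon mon_ne ord_mon)
open Pq (Fm Tv At cz lam Pg tot)

namespace H53

variable {K : Type} [Field K] [Algebra ℂ K] {c r : ℕ}

/-- the visible functions -/
def vis (s : Fin c → K) (y : Fin r → K) (J : Finset (Pg c)) (f : K) : Option (J ⊕ Fin r) → K :=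
  fun o => o.elim f (Sum.elim (fun p => lam s p) y)

theorem mo {s : Fin c → K} {y : Fin r → K} {J : Finset (Pg c)} {f φ : K} (h : Mo s y J f φ) :
    ∃ (b : ℂ) (M : _ → ℤ), b ≠ 0 ∧ φ = b • mon (vis s y J f) M := by
  obtain ⟨b, n, v, a, b0, hn, rfl⟩ := h
  refine ⟨b, fun o => o.elim (-a) (Sum.elim (fun p => n p) v), b0, congrArg _ ?_⟩
  rw [mon, Fintype.prod_option, Fintype.prod_sum_type, Pq.hm,
    Finsupp.prod_of_support_subset _ hn _ fun _ _ => zpow_zero _, ← Finset.prod_coe_sort]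
  simp [vis, mon, div_eq_inv_mul]

/-- the form of the theorem of Doignon for any finite index type -/
theorem helly {σ ι : Type} [Fintype σ] (s : Finset ι) (ρ : ι → σ → ℤ) (c : ι → ℤ) (p : σ → ℤ)
    (a : ℤ) (h : ∀ t ⊆ s, t.card ≤ 2 ^ Fintype.card σ → ∃ m : σ → ℤ,
      (∀ i ∈ t, c i ≤ ∑ k, m k * ρ i k) ∧ ∑ k, m k * p k < a) :
    ∃ m : σ → ℤ, (∀ i ∈ s, c i ≤ ∑ k, m k * ρ i k) ∧ ∑ k, m k * p k < a := by
  let e := (Fintype.equivFin σ).symm
  have k : ∀ m w : σ → ℤ, ∑ j, (m (e j) : ℝ) * (w (e j) : ℝ) = (∑ k, m k * w k : ℤ) := fun m w => by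
    rw [← Equiv.sum_comp e]
    push_cast
    rfl
  obtain ⟨m, h1, h2⟩ := He.helly_rays s (fun i j => (ρ i (e j) : ℝ)) (fun i => c i)
    (fun j => p (e j)) a fun t ht hc =>
      let ⟨m, a1, a2⟩ := h t ht hc
      ⟨fun j => m (e j), fun i hi => by rw [k]; exact_mod_cast a1 i hi, by
        rw [k]; exact_mod_cast a2⟩
  have k' := k fun j => m (e.symm j)
  simp only [Equiv.symm_apply_apply] at k'
  exact ⟨fun j => m (e.symm j), fun i hi => by
    have := h1 i hi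
    rw [k'] at this
    exact_mod_cast this, by
    rw [k'] at h2
    exact_mod_cast h2⟩

end H53

open H53 in
/-- **HLR** -/
theorem hlr53 : HLR := by
  classical
  intro drp car mon' B q ε hq hε
  obtain ⟨W, m, m2, H⟩ := mon' (2 ^ (2 * B + 1) + (2 * B + 1)) q ε hq hε
  refine ⟨W, m, m2, fun K _ _ c r ρ s y u T G κ Q ξ I J hB hJ sc => ?_⟩
  have fm := sc.pk.fm
  obtain ⟨fin, ⟨f, ef⟩, cr⟩ := car K c _ s (Fin.append y u) T J fm
  obtain ⟨ξ', t, rep, tc, -, t1, t2⟩ := cr Q ξ sc.rep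
  have l0 := Pq.F60.lam_ne (Pq.F60.ind_s fm.rat.ind)
  have y0 : ∀ i, y i ≠ 0 := fun i =>
    Fin.append_left y u i ▸ Pq.F60.y_ne fm.rat.ind (Fin.castAdd ρ i)
  have x0 : ∀ o, vis s y J f o ≠ 0 := by
    obtain ⟨E, -, rfl⟩ := ef
    rintro (_ | p | i)
    exacts [Finset.prod_ne_zero_iff.2 fun p _ => l0 p, l0 p, y0 i]
  have g0 := sc.pk.g0
  have e : ∀ M, Q.ord (tot G ^ m * mon (vis s y J f) M) =
      m * Q.ord (tot G) + ∑ k, M k * Q.ord (vis s y J f k) := fun M => by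
    rw [Pl.ord_mul _ (pow_ne_zero _ g0) (mon_ne x0 M), Pl.ord_pow, ord_mon Q x0]
  obtain ⟨M, h1, h2⟩ := helly fin.toFinset (fun P k => P.ord (vis s y J f k)) (fun P => m * κ P)
    (fun k => Q.ord (vis s y J f k))
    (q * m * (cz s (Fin.append y u) Q + 1) - m * Q.ord (tot G)) fun t' ht hc => by
      let X := Kt s (Fin.append y u) T J \ ↑(t' ∪ t)
      have nx : ∀ P, ∀ p ∉ J, At s P (some p) → P ∉ X := fun P p a b c => c.1.2.2 p a b
      have ex : ∀ p ∉ J, (∃ P ∈ T \ X, At s P (some p)) ↔ ∃ P ∈ T, At s P (some p) := fun p a =>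
        ⟨fun ⟨P, b, c⟩ => ⟨P, b.1, c⟩, fun ⟨P, b, c⟩ => ⟨P, ⟨b, nx P p a c⟩, c⟩⟩
      have cs : Fintype.card (Option (J ⊕ Fin r)) ≤ 2 * B + 1 := by
        simp only [Fintype.card_option, Fintype.card_sum, Fintype.card_coe, Fintype.card_fin]
        omega
      have pw := Nat.pow_le_pow_right two_pos cs
      obtain ⟨φ, a1, a2, a3⟩ := H K c r ρ s y u (T \ X) G κ Q ξ' I J f (by omega) (by omega)
        ⟨drp K c _ s _ T _ q ε _ κ X sc.pk fin.sdiff fun P a => a.1.2.1, sc.hg, sc.g0,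
          ⟨rep.nn, fun P a => ⟨⟨(rep.sup P a).1, fun b =>
            b.2 (Finset.mem_union_right _ (t1 P b.1 a))⟩, (rep.sup P a).2⟩, rep.eq⟩,
          fun P a p b c d => (t2 P fun k => k.2.2 p c d).symm ▸ sc.pos P a.1 p b c d,
          ⟨sc.od.co, fun P a => sc.od.od P a.1⟩, fun P a => sc.y1 P a.1, fun P a => sc.u0 P a.1,
          fun ν n0 => (sc.wi ν n0).trans_eq (congrArg ncard (Set.ext fun p =>
            ⟨fun ⟨a, b, P, c, P', d, k⟩ => ⟨a, b, P, ⟨c, nx P p b k.1⟩, P', ⟨d, nx P' p b k.2.1⟩, k⟩,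
              fun ⟨a, b, P, c, P', d, k⟩ => ⟨a, b, P, c.1, P', d.1, k⟩⟩))⟩
        (ef.imp fun E a =>
          ⟨fun p => (a.1 p).trans (and_congr_right fun c => not_congr (ex p c).symm), a.2⟩)
        ((ncard_le_ncard (t := ↑(t' ∪ t)) (fun P a => by_contra fun b =>
          a.1.2 ⟨⟨a.1.1, a.2⟩, b⟩) (Finset.finite_toSet _)).trans (by
            rw [ncard_coe_finset]
            have := Finset.card_union_le t' t
            omega))
      obtain ⟨b, M, b0, rfl⟩ := mo a1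
      refine ⟨M, fun P a => ?_, ?_⟩
      · have k := fin.mem_toFinset.1 (ht a)
        have := a2 P ⟨⟨k.1, fun z => z.2 (Finset.mem_union_left _ a)⟩, k.2⟩
        rwa [P.ord_smul b0, ord_mon P x0] at this
      · rw [mul_smul_comm, Q.ord_smul b0, e] at a3
        omega
  refine ⟨_, mon_ne x0 M, fun P hP => ?_, by rw [e]; omega⟩
  rw [ord_mon P x0]
  by_cases k : P ∈ Kt s (Fin.append y u) T J
  · exact h1 P (fin.mem_toFinset.2 k)
  obtain ⟨E, hE, rfl⟩ := ef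
  have key : κ P = 0 ∧ (∀ p, p ∈ J ∨ p ∈ E → P.ord (lam s p) = 0) ∧ ∀ i, P.ord (y i) = 0 := by
    by_cases tv : Tv s (Fin.append y u) P
    · have a := ((Pq.fac60 c _ K s _ fm.rat).2.2.2.2.2.2.2.2.1 P).1 tv
      exact ⟨(sc.pk.reg P hP tv).2, fun p _ => a.1 p, fun i =>
        Fin.append_left y u i ▸ a.2 (Fin.castAdd ρ i)⟩
    · obtain ⟨p, a, b⟩ : ∃ p ∉ J, At s P (some p) := by
        by_contra n
        exact k ⟨hP, tv, fun p a b => n ⟨p, a, b⟩⟩
      refine ⟨(sc.od.od P hP p a b).2.2, fun p' d => ?_, fun i => sc.y1 P hP p a b i (y0 i)⟩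
      have ne : p' ≠ p := by
        rintro rfl
        exact d.elim a fun d => ((hE _).1 d).2 ⟨P, hP, b⟩
      rw [b.2 p', Pq.od, Finsupp.single_eq_of_ne' ne, mul_zero]
  rw [key.1, mul_zero]
  refine (Finset.sum_eq_zero fun o _ => mul_eq_zero_of_right _ ?_).ge
  rcases o with _ | p | i
  · exact (P.ord_prod E fun p _ => l0 p).trans (Finset.sum_eq_zero fun p a => key.2.1 p (.inr a))
  · exact key.2.1 p (.inl p.2)
  · exact key.2.2 i

end Vale.Agent.P283R.Wc
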