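import Vale.Agent.P283R.Wc.St

/-!
# P283R, block WD, the last layer: few kept primes
-/

open Set

noncomputable section

namespace Vale.Agent.P283R.Wc

open Vale.Agent.P287D Vale.Agent.P283M Cx Cy
open Vale.Agent.P283R.To (mon)
open Pq (Fm Hm Hg tot Tv At cz lam mu fr Pg)
open Wd (Sb sb Wv Ps Wx MNW WT)

namespace M19

variable {K : Type} [Field K] [Algebra ℂ K] {c ρ r k : ℕ}

theorem dot {e : Fin k → Pl K} (h : Function.Injective e) (δ : Fin k → ℤ) (i : Fin k) :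
    δ ⬝ᵥ Dr e (e i) = δ i := by
  simp [dotProduct, Dr, h.eq_iff]

theorem kap_eq {s : Fin c → K} {y : Fin r → K} {u : Fin ρ → K}
    (h : D.Rat (fr s (Fin.append y u))) (P : Pl K) :
    kap (zt (sb (fr s y)) u) P =
      cz s (Fin.append y u) P + P.ord (∏ j, Fin.append y u j) := by
  obtain ⟨a, ha⟩ := Cb.kap_int (fr s (Fin.append y u)) P
  rw [Wd.zt_sb, Pq.B25.app_app, Wd.kap_cs, cz, ha, Int.floor_intCast,
    To.ord_prod P (Pq.B25.y_ne h)]
  push_cast
  ring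

end M19

open M19

/-- **MOR** -/
theorem mor19 : MOR := by
  intro car cmp gen pdx wv1 wv2 mnu B q ε hq hε
  obtain ⟨W, m, hW, hm2, H⟩ := mnu (5 * B + 2) q ε hq hε
  refine ⟨W, m, hm2, ?_⟩
  intro K _ _ c r ρ s y u T G κ Q ξ I J f hB hJ sc ef hk
  have fm := sc.pk.fm
  obtain ⟨k, e, rng⟩ := (car K c _ s _ T J fm).1.fin_embedding
  have inj : Function.Injective e := e.injective
  have kB : k ≤ B := by
    rw [← rng, ncard_range_of_injective inj] at hk
    simpa using hk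
  obtain ⟨E, s', a', hE, gn⟩ := gen K c r ρ s y u T J κ f k e fm sc.od sc.y1 ef inj rng
  obtain ⟨π, pd, wid⟩ := pdx K c r ρ s y u T W I J k e fm sc.wi
  obtain ⟨γ, hγ, -, γ0⟩ := cmp K c r ρ s y u T G fm.rat sc.hg
  obtain ⟨ra, ex, -⟩ := Pq.B25.tower fm.rat
  have y0 := Pq.B25.y_ne fm.rat
  have h0 : ∏ j, Fin.append y u j ≠ 0 := Finset.prod_ne_zero_iff.2 fun j _ => y0 j
  have eT : ∀ i, e i ∈ Kt s (Fin.append y u) T J := fun i => rng ▸ mem_range_self i
  have ft : Frm (zt (sb (fr s y)) u) := by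
    refine Cb.fr_of ex.ff' ?_
    rw [Wd.zt_sb, Pq.B25.app_app]
    exact fm.rat.ind.comp _ (Fin.cast_injective _)
  obtain ⟨N, l, σ, α, F, dx⟩ := sc.pk.av 1 _ ∅ k e (zt (sb (fr s y)) u) one_ne_zero h0 finite_empty
    inj (fun i => ⟨(eT i).1, notMem_empty _⟩) (fun P hP n => by
      rw [rng] at n
      rw [P297Z.Pl.ord_one, add_zero]
      by_cases t : Tv s (Fin.append y u) P
      · exact ⟨fm.kt P hP.1 t, (sc.pk.reg P hP.1 t).2⟩
      · have : ∃ p ∉ J, At s P (some p) := by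
          by_contra z
          exact n ⟨hP.1, t, fun p hp a => z ⟨p, hp, a⟩⟩
        obtain ⟨p, hp, a⟩ := this
        exact (sc.od.od P hP.1 p hp a).2) ft (kap_eq fm.rat)
  simp only [sdiff_empty, div_one, P297Z.Pl.ord_one, add_zero] at dx
  let η : Sb (fr s y) := ∏ i, sb (fr s y) (Fin.natAdd c i)
  have hη : hm u η 1 = ∏ j, Fin.append y u j := by
    rw [Fin.prod_univ_add, hm, map_prod]
    simp only [mon, sb, fr, Fin.append_left, Fin.append_right, Pi.one_apply, zpow_one]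
    rfl
  rw [← hη, ← hγ] at dx
  obtain ⟨n, hn, lt⟩ := H (c + r) k ρ E (Sb (fr s y)) K N l (Pg c) (sb (fr s y)) u T (Dr e) σ α F η γ
    _ _ π s' a' Q (by omega) (by omega) (by omega)
    ⟨fun i => cz s (Fin.append y u) (e i), by ext i; simp⟩ ex
    ⟨Cb.fr_of ra.ff ra.ind, γ0 sc.g0, dx, wid,
      wv1 K c r ρ s y u T W q ε G κ Q ξ I J f k N E e π σ α s' a' sc inj rng pd dx.cox gn,
      wv2 K c r ρ s y u T W q ε G κ Q ξ I J k N e π σ α hW sc inj rng pd wid dx.cox⟩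
  have z0 : ∏ j, s' j ^ n j ≠ 0 := Finset.prod_ne_zero_iff.2 fun j _ => pow_ne_zero _ (gn.ne j)
  have ez : ((∏ j, s' j ^ n j : Sb (fr s y)) : K) = ∏ j, (s' j : K) ^ n j := by push_cast; rfl
  have φ0 : ∏ j, (s' j : K) ^ n j ≠ 0 := by rw [← ez]; exact_mod_cast z0
  refine ⟨∏ j, (s' j : K) ^ n j, gn.mo n, fun P hP => ?_, ?_⟩
  · rw [← rng] at hP
    obtain ⟨i, rfl⟩ := hP
    have := (gn.sec _ _ z0).1 (Submodule.subset_span ⟨n, hn, rfl⟩) _ (eT i).1
    rw [dot inj, ez] at this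
    simp only [Pi.neg_apply, Pi.smul_apply, smul_eq_mul] at this
    linarith
  · have g0 := sc.pk.g0
    have qm : (0 : ℝ) < (q * m : ℕ) := by exact_mod_cast Nat.mul_pos hq (by omega)
    change 0 < ld _ _ (_ * ∏ j, (s' j : K) ^ n j) Q at lt
    rw [ld, kap_eq fm.rat, hη, hγ, mul_pow, mul_assoc, sub_pos, div_lt_iff₀ qm,
      P297Z.Pl.ord_mul _ (pow_ne_zero _ (pow_ne_zero _ h0)) (mul_ne_zero (pow_ne_zero _ g0) φ0),
      P297Z.Pl.ord_pow, P297Z.Pl.ord_pow] at lt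
    have : ((Q.ord (tot G ^ m * ∏ j, (s' j : K) ^ n j) : ℤ) : ℝ) <
        q * m * (cz s (Fin.append y u) Q + 1) := by
      push_cast at lt
      linarith
    exact_mod_cast this

end Vale.Agent.P283R.Wc
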