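import Vale.Agent.P283R.Wc.St
import Vale.Agent.P283R.Pq.Hel67

/-!
# P283R, block WD, the last layer: few special pages
-/

open Set

noncomputable section

namespace Vale.Agent.P283R.Wc

open Vale.Agent.P287D Vale.Agent.P283M
open Pq (Fm Hm Hg tot Tv At cz lam mu fr Pg)

/-- **PAGE** -/
theorem page68 : PAGE := fun d q q0 => ⟨q * (d + 1) * (d + 2) + 1 + d, by
  intro K _ _ c ρ s y T ε G κ I Q ξ ε0 pk o rep pos
  classical
  obtain ⟨-, -, -, f4, f5, -⟩ := Pq.fac c ρ K s y pk.fm.rat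
  obtain ⟨u, u0, J, -, hJ, H⟩ := Pq.hel67 pk.fm ε0.le q0 o.hg pk.g0 pk.hw pk.fin
    (fun E h => by have := pk.eff E h; simp only [id]; linarith) Q ξ rep.nn rep.sup
    fun u a ha a0 => (rep.eq a ⟨a0, u, ha⟩).le
  choose x hx using fun i : Fin c => Pq.F60.all (MvPolynomial.X i) MvPolynomial.X_prime.irreducible
  have dm := pk.dim
  refine ⟨u, J.eraseNone ∪ Finset.univ.image x, u0, (Finset.card_union_le _ _).trans
    (add_le_add ((Finset.card_eraseNone_le _).trans (hJ.trans ?_))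
      (Finset.card_image_le.trans (by simp; omega))), fun i p h => ?_, fun P hP p hp hA => ?_⟩
  · exact Nat.succ_le_succ (Nat.mul_le_mul (Nat.mul_le_mul_left _ (by omega)) (by omega))
  · exact Finset.mem_union_right _ (Finset.mem_image.2
      ⟨i, Finset.mem_univ _, ((Pq.pol c).2.1 _ _ (h.trans (hx i).dvd)).symm⟩)
  by_cases hI : p ∈ I
  · obtain ⟨h1, h2⟩ := H P (some p) hP hA ⟨P, (pos P ⟨hP, (f5 _ _ hA).1, fun p' h' e =>
      h' (Option.some.inj (f4 _ _ _ hA e) ▸ hI)⟩).ne', hA⟩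
      fun e => hp (Finset.mem_union_left _ (Finset.mem_eraseNone.2 e))
    have h3 := (Pq.czr c ρ K s y pk.fm.rat).1 P p hA
    have h4 := pk.eff P hP
    have h5 := pk.fm.inv P hP (f5 _ _ hA).1 G o.hg u u0
    simp only [id] at h1 h2 h5
    refine ⟨h1, le_antisymm (le_of_mul_le_mul_left (a := (q : ℤ)) (by linarith)
      (Int.natCast_pos.2 q0)) (by omega), by linarith⟩
  · obtain ⟨h1, h2, h3⟩ := o.od.od P hP p hI hA
    exact ⟨h1, h2, by rw [h3, o.g0 P hP p hI hA u u0, add_zero]⟩⟩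

end Vale.Agent.P283R.Wc
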