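import Vale.Agent.P283R.Wc.St

/-!
# P283R, block WD, the last layer: the pages exist
-/

open Set

noncomputable section

namespace Vale.Agent.P283R.Wc

open Vale.Agent.P287D Vale.Agent.P283M Cx Cy
open Pq (Fm At lam mu fr Pg)
open Wd (Sb)

namespace X56

variable {K : Type} [Field K] [Algebra ℂ K] {c r ρ : ℕ}

theorem lam_mem (s : Fin c → K) (y : Fin r → K) (p : Pg c) :
    lam s p ∈ IntermediateField.adjoin ℂ (range (fr s y)) := by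
  have h : lam s p ∈ Algebra.adjoin ℂ (range s) := by
    rw [Algebra.adjoin_range_eq_range_aeval]
    exact ⟨p.l, rfl⟩
  refine IntermediateField.algebra_adjoin_le_adjoin ℂ _ (Algebra.adjoin_mono ?_ h)
  rintro _ ⟨i, rfl⟩
  exact ⟨Fin.castAdd r i, Fin.append_left s y i⟩

theorem mn (V : Set (Fin ρ → ℤ)) (hV : V.Finite) (m : Fin ρ → ℤ) :
    ∃ k : ℤ, V.Nonempty → (∀ v ∈ V, 0 ≤ v ⬝ᵥ m + k) ∧ ∃ v ∈ V, v ⬝ᵥ m + k = 0 := by
  by_cases h : V.Nonempty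
  · obtain ⟨v, hv, hm⟩ := exists_min_image V (fun v => v ⬝ᵥ m) hV h
    exact ⟨-(v ⬝ᵥ m), fun _ => ⟨fun w hw => by have := hm w hw; omega, v, hv, by omega⟩⟩
  · exact ⟨0, fun h' => (h h').elim⟩

end X56

theorem pdx56 : PDX := by
  classical
  intro K _ _ c r ρ s y u T W I J k e F hW
  let V : Pg c → Set (Fin ρ → ℤ) := fun p =>
    {v | ∃ P ∈ T, At s P (some p) ∧ v = fun i => P.ord (u i)}
  have fV : ∀ p, (V p).Finite := fun p => by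
    refine ((F.fin (lam s p)).image fun P i => P.ord (u i)).subset ?_
    rintro v ⟨P, hP, hA, rfl⟩
    exact ⟨P, ⟨hP, ne_of_gt hA.1⟩, rfl⟩
  choose κ hκ using fun p m => X56.mn (V p) (fV p) m
  let I' : Finset (Pg c) := I.filter fun p => p ∉ J ∧ ∃ P ∈ T, At s P (some p)
  have hI : ∀ p, p ∈ I' ↔ p ∈ I ∧ p ∉ J ∧ ∃ P ∈ T, At s P (some p) := fun p => Finset.mem_filter
  have ne : ∀ p ∈ I', (V p).Nonempty := fun p hp => by
    obtain ⟨P, hP, hA⟩ := ((hI p).1 hp).2.2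
    exact ⟨_, P, hP, hA, rfl⟩
  refine ⟨⟨I', V, κ, fun p => ⟨lam s p, X56.lam_mem s y p⟩, fun p i => -(e i).ord (lam s p),
    fun j i => -(e i).ord (u j)⟩, ⟨hI, fun _ _ => Iff.rfl, fun p hp m => hκ p m (ne p hp),
    fun _ => rfl, fun _ _ => rfl, fun _ _ => rfl⟩, fun p hp => ?_, ne,
    fun p hp v hv ν => (hκ p ν (ne p hp)).1 v hv, fun ν hν => (hW ν hν).trans (le_of_eq ?_)⟩
  · obtain ⟨v, -, hv⟩ := (hκ p 0 (ne p hp)).2
    simpa using hv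
  · refine congrArg Set.ncard (Set.ext fun p => ⟨?_, ?_⟩)
    · rintro ⟨h1, h2, P, hP, P', hP', hA, hA', h⟩
      exact ⟨(hI p).2 ⟨h1, h2, P, hP, hA⟩, _, ⟨P, hP, hA, rfl⟩, _, ⟨P', hP', hA', rfl⟩, h⟩
    · rintro ⟨h1, _, ⟨P, hP, hA, rfl⟩, _, ⟨P', hP', hA', rfl⟩, h⟩
      exact ⟨((hI p).1 h1).1, ((hI p).1 h1).2.1, P, hP, P', hP', hA, hA', h⟩

end Vale.Agent.P283R.Wc
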