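import Vale.Agent.P283R.Wc.St
import Vale.Agent.P283R.Wd.Gap25
import Vale.Agent.P283R.Wd.Spl25
import Vale.Agent.P283R.Pq.All

/-!
# P283R, block WD, the last layer: the row SPR
-/

open Set
open scoped Matrix

noncomputable section

namespace Vale.Agent.P283R.Wc

open Vale.Agent.P287D Vale.Agent.P283M Cx Cy
open Vale.Agent.P283R.To (mon)
open Pq (Fm Hm At cz lam mu fr Pg)

namespace S84

variable {K : Type} [Field K] [Algebra ℂ K] {c ρ : ℕ} {s : Fin c → K} {y : Fin ρ → K}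

theorem lam_ne (h : D.Rat (fr s y)) (p : Pg c) : lam s p ≠ 0 := by
  have k := ((Pq.fac c ρ K s y h).2.1 (Finsupp.single p 1) 0).1
  rw [Pq.hm, Finsupp.prod_single_index (zpow_zero _), zpow_one] at k
  exact left_ne_zero_of_mul k

theorem lam_mem (s : Fin c → K) (p : Pg c) : lam s p ∈ IntermediateField.adjoin ℂ (range s) :=
  IntermediateField.algebra_adjoin_le_adjoin ℂ _ (by
    rw [Algebra.adjoin_range_eq_range_aeval]; exact ⟨p.l, rfl⟩)

open Classical in
theorem ord_tw (h : D.Rat (fr s y)) (F : Finset (Pg c)) (o : Pg c → ℤ) {P : Pl K} {p : Pg c}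
    (a : At s P (some p)) (m : mu s P (some p) = 1) :
    P.ord (∏ p' ∈ F, lam s p' ^ o p') = if p ∈ F then o p else 0 := by
  have k := To.ord_mon P (z := fun p' : F => lam s p') (fun p' => lam_ne h p') fun p' => o p'
  rw [mon, Finset.prod_coe_sort F fun p' => lam s p' ^ o p',
    Finset.sum_coe_sort F fun p' => o p' * P.ord (lam s p')] at k
  rw [k, ← Finset.sum_ite_eq]
  refine Finset.sum_congr rfl fun p' _ => ?_
  rw [a.2 p', m, one_mul, Pq.od, Finsupp.single_apply]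
  by_cases e : p = p'
  · rw [if_pos e, if_pos e.symm, mul_one]
  · rw [if_neg e, if_neg (Ne.symm e), mul_zero]

end S84

/-- **SPR** -/
theorem spr84 : SPR := by
  classical
  intro tw W d C₀
  choose C hC using fun ρ => Wd.gap W ρ C₀
  refine ⟨(Finset.range (d + 1)).sup C, fun K _ _ c ρ s y T κ I J₀ hd fm h0 od un => ?_⟩
  obtain ⟨v, hv⟩ : ∃ v : Pl K → Fin ρ → ℤ, ∀ P j, v P j = P.ord (y j) := ⟨_, fun _ _ => rfl⟩
  obtain ⟨E, hE⟩ : ∃ E : Pg c → Set (Fin ρ → ℤ), ∀ p e, e ∈ E p ↔ ∃ P ∈ T, ∃ P' ∈ T,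
      At s P (some p) ∧ At s P' (some p) ∧ e = v P - v P' := ⟨fun p => {e | _}, fun _ _ => Iff.rfl⟩
  obtain ⟨J, j1, -, j3, j4⟩ := hC ρ I E J₀ h0
  let L : Submodule ℤ (Fin ρ → ℤ) :=
    { carrier := {m | ∀ p ∈ I \ J, ∀ e ∈ E p, e ⬝ᵥ m = 0}
      add_mem' := fun a b p hp e he => by rw [dotProduct_add, a p hp e he, b p hp e he, add_zero]
      zero_mem' := fun _ _ e _ => dotProduct_zero e
      smul_mem' := fun n m a p hp e he => by rw [dotProduct_smul, a p hp e he, smul_zero] }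
  obtain ⟨r, ρ', rfl, A, B, ab, ba, hL⟩ := Wd.lat L fun n m n0 a p hp e he => by
    have k := a p hp e he
    rw [dotProduct_smul, smul_eq_mul] at k
    exact (mul_eq_zero.1 k).resolve_left n0
  simp only [Fin.cast_eq_self] at hL
  have oz : ∀ (P : Pl K) i, P.ord (mon y (A i)) = A i ⬝ᵥ v P := fun P i => by
    rw [Pq.B25.ord_bas fm.rat, funext (hv P)]
  have z0 : ∀ i, mon y (A i) ≠ 0 := fun i => To.mon_ne (Pq.B25.y_ne fm.rat) _
  have v0 : ∀ P ∈ T, ∀ p ∉ I, At s P (some p) → v P = 0 := fun P t p hp a =>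
    funext fun j => (hv P j).trans (un P t p hp a j (Pq.B25.y_ne fm.rat j))
  have ro : ∀ i, A i ᵥ* B = Pi.single i 1 := fun i => by
    ext j
    have k := congrFun (congrFun ab i) j
    rw [Matrix.one_apply] at k
    rw [Pi.single_apply, if_congr eq_comm rfl rfl, ← k]
    rfl
  obtain ⟨o, ho⟩ : ∃ o : Fin r → Pg c → ℤ, ∀ i, ∀ P ∈ T, ∀ p ∈ I \ J, At s P (some p) →
      o i p = -(A (Fin.castAdd ρ' i) ⬝ᵥ v P) := by
    refine ⟨fun i p => if h : ∃ P ∈ T, At s P (some p) then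
      -(A (Fin.castAdd ρ' i) ⬝ᵥ v h.choose) else 0, fun i P t p hp a => ?_⟩
    have h : ∃ P ∈ T, At s P (some p) := ⟨P, t, a⟩
    have k := (hL (A (Fin.castAdd ρ' i))).2 (fun j => by
      rw [ro, Pi.single_eq_of_ne]
      exact fun e => by
        have := congrArg Fin.val e
        simp only [Fin.val_natAdd, Fin.val_castAdd] at this
        omega) p hp _ ((hE p _).2 ⟨_, h.choose_spec.1, P, t, h.choose_spec.2, a, rfl⟩)
    rw [sub_dotProduct, sub_eq_zero, dotProduct_comm, dotProduct_comm (v P)] at k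
    simp only [dif_pos h, k]
  obtain ⟨b1, -, b3, -, b5⟩ := Pq.B25.bas fm.rat ba
  have f0 : ∀ i, ∏ p ∈ I \ J, lam s p ^ o i p ≠ 0 := fun i =>
    Finset.prod_ne_zero_iff.2 fun p _ => zpow_ne_zero _ (S84.lam_ne fm.rat p)
  obtain ⟨t1, t2, t3⟩ := tw K c _ s (fun i => mon y (A i)) T
    (Fin.append (fun i => ∏ p ∈ I \ J, lam s p ^ o i p) fun _ : Fin ρ' => 1) b1 fun i => by
      refine Fin.addCases (fun i => ?_) (fun i => ?_) i
      · rw [Fin.append_left]
        exact ⟨f0 i, prod_mem fun p _ => zpow_mem (S84.lam_mem s p) _⟩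
      · rw [Fin.append_right]
        exact ⟨one_ne_zero, one_mem _⟩
  have e : (fun i => Fin.append (fun i => ∏ p ∈ I \ J, lam s p ^ o i p) (fun _ : Fin ρ' => (1 : K))
      i * mon y (A i)) = Fin.append
        (fun i => (∏ p ∈ I \ J, lam s p ^ o i p) * mon y (A (Fin.castAdd ρ' i)))
        fun j => mon y (A (Fin.natAdd r j)) := funext fun i => by
    refine Fin.addCases (fun i => ?_) (fun i => ?_) i
    · rw [Fin.append_left, Fin.append_left]
    · rw [Fin.append_right, Fin.append_right, one_mul]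
  rw [e] at t1 t2 t3
  refine ⟨J, r, ρ', _, _, j1, j3.trans (Finset.le_sup (f := C) (Finset.mem_range.2 (by omega))),
    ⟨rfl, t1, fun P => (t2 P).trans (b5 P), ⟨Pq.B25.ev ba, fun a b => Matrix.add_vecMul B a b⟩,
      fun m => (t3 _).trans (b3 m)⟩, fun P t p hp a i _ => ?_, fun P t p hp a i _ => ?_,
    fun ν ν0 => ?_⟩
  · rw [P.ord_mul (f0 i) (z0 _), S84.ord_tw fm.rat _ _ a (od.od P t p (fun c => hp (j1 c)) a).1, oz]
    split_ifs with c
    · rw [ho i P t p c a, neg_add_cancel]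
    · rw [v0 P t p (fun c' => c (Finset.mem_sdiff.2 ⟨c', hp⟩)) a, dotProduct_zero, add_zero]
  · rw [oz, v0 P t p hp a, dotProduct_zero]
  · obtain ⟨m, hm⟩ : ∃ m, m = Fin.append (0 : Fin r → ℤ) ν ᵥ* A := ⟨_, rfl⟩
    have k : ∀ P : Pl K, (fun i => P.ord (mon y (A (Fin.natAdd r i)))) ⬝ᵥ ν = v P ⬝ᵥ m := fun P => by
      rw [hm, dotProduct_comm (v P), ← Matrix.dotProduct_mulVec, dotProduct, dotProduct,
        Fin.sum_univ_add]
      simp only [Fin.append_left, Fin.append_right, Pi.zero_apply, zero_mul, Finset.sum_const_zero,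
        zero_add, oz]
      exact Finset.sum_congr rfl fun j _ => mul_comm _ _
    obtain h | h := j4 m
    · refine (ν0 (funext fun j => ?_)).elim
      have l := (hL m).1 h j
      rwa [hm, Matrix.vecMul_vecMul, ab, Matrix.vecMul_one, Fin.append_right] at l
    · refine h.trans ?_
      rw [← ncard_coe_finset]
      refine ncard_le_ncard (fun p hp => ?_) (I.finite_toSet.subset fun p hp => hp.1)
      obtain ⟨p1, e, he, p2⟩ := Finset.mem_filter.1 hp
      obtain ⟨P, t, P', t', a, a', rfl⟩ := (hE p e).1 he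
      refine ⟨(Finset.mem_sdiff.1 p1).1, (Finset.mem_sdiff.1 p1).2, P, t, P', t', a, a', ?_⟩
      rw [k, k, ← sub_ne_zero, ← sub_dotProduct]
      exact p2

end Vale.Agent.P283R.Wc
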