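import Vale.Agent.P283R.Wd.St
import Vale.Agent.P283R.Wd.On46
import Vale.Agent.P283R.Pq.Bas25

/-!
# P283R, block WD, the last layer: from the family of the primes to the complement, the statements
-/

open Set

noncomputable section

namespace Vale.Agent.P283R.Wc

open Vale.Agent.P287D Vale.Agent.P283M Cx Cy
open Vale.Agent.P283R.To (mon)
open Pq (Fm Hm Hg tot Tv At cz lam mu fr Pg)
open Wd (Sb sb Wv Ps Wx MNW WT)

section defs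

variable {K : Type} [Field K] [Algebra ℂ K] {c ρ ρ' r k : ℕ}

open Classical in
/-- the prime divisors `e i` as a family of divisors -/
def Dr (e : Fin k → Pl K) (P : Pl K) : Fin k → ℤ := fun i => if P = e i then 1 else 0

/-- homogeneous and not zero -/
def Ho (s : Fin c → K) (y : Fin ρ → K) (a : K) : Prop := a ≠ 0 ∧ ∃ u, a ∈ Hm s y u

/-- the invariant primes which are not over a page outside of `J` -/
def Kt (s : Fin c → K) (y : Fin ρ → K) (T : Set (Pl K)) (J : Finset (Pg c)) : Set (Pl K) :=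
  {P | P ∈ T ∧ ¬ Tv s y P ∧ ∀ p ∉ J, ¬ At s P (some p)}

/-- `Q` is a combination of invariant primes on the homogeneous functions -/
structure Rep (s : Fin c → K) (y : Fin ρ → K) (T : Set (Pl K)) (Q : Pl K) (ξ : Pl K → ℝ) :
    Prop where
  nn : 0 ≤ ξ
  sup : ∀ P, ξ P ≠ 0 → P ∈ T ∧ ¬ Tv s y P
  eq : ∀ a, Ho s y a → ∑ᶠ P, ξ P * P.ord a = Q.ord a

/-- a section which is klt at `Q` -/
def Sec (q m : ℕ) (z : Pl K → ℤ) (T : Set (Pl K)) (g : K) (κ : Pl K → ℤ) (Q : Pl K) : Prop :=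
  ∃ φ : K, φ ≠ 0 ∧ (∀ P ∈ T, m * κ P ≤ P.ord φ) ∧ Q.ord (g ^ m * φ) < q * m * (z Q + 1)

/-- Cox data are available -/
def Av (d q : ℕ) (ε : ℝ) (z : Pl K → ℤ) (T : Set (Pl K)) (g : K) (κ : Pl K → ℤ) : Prop :=
  ∀ (a h₀ : K) (X : Set (Pl K)) (k : ℕ) (e : Fin k → Pl K) (t : Fin d → K), a ≠ 0 → h₀ ≠ 0 →
    X.Finite → Function.Injective e → (∀ i, e i ∈ T \ X) →
    (∀ P ∈ T \ X, P ∉ range e → z P = 0 ∧ κ P + P.ord a = 0) → Frm t →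
    (∀ P, kap t P = z P + P.ord h₀) →
    ∃ (N l : ℕ) (σ : Fin N → K) (α : Fin N → Fin k → ℤ) (f : Fin l → MvPolynomial (Fin N) ℂ),
      Dx q ε t (T \ X) (Dr e) σ α f (h₀ ^ q * (g / a)) (g / a) (fun i => κ (e i) + (e i).ord a)
        fun i => κ (e i) + (e i).ord a - q * z (e i)

/-- `q (K + B) = div g + ∑ κ_P P` with respect to the form with the orders `z` -/
structure Lk (n q : ℕ) (Γ : BD K) (z : Pl K → ℤ) (T : Set (Pl K)) (g : K) (κ : Pl K → ℤ) :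
    Prop where
  cn : ∃ j : K, j ≠ 0 ∧ ∀ P, cn K (n + 1) P = z P + P.ord j
  fz : {P | P ∈ T ∧ z P ≠ 0}.Finite
  fk : {P | P ∈ T ∧ κ P ≠ 0}.Finite
  g0 : g ≠ 0
  eq : ∀ P ∈ T, (κ P : ℝ) = q * z P - q * dsc (n + 1) Γ P - P.ord g

/-- the package -/
structure Pk (d q : ℕ) (ε : ℝ) (s : Fin c → K) (y : Fin ρ → K) (T : Set (Pl K)) (g : K)
    (κ : Pl K → ℤ) : Prop where
  dim : c + ρ = d
  fm : Fm s y (· ∈ T) id
  g0 : g ≠ 0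
  reg : ∀ P ∈ T, Tv s y P → 0 ≤ P.ord g ∧ κ P = 0
  fin : {P | P ∈ T ∧ κ P ≠ 0}.Finite
  eff : ∀ P ∈ T, q * cz s y P - P.ord g ≤ κ P
  hw : Pq.Hw ε q s y (· ∈ T) id g κ
  av : Av d q ε (cz s y) T g κ

/-- the functions `x` are units along the primes over the pages outside of `J` -/
def Un {ι : Type} (s : Fin c → K) (T : Set (Pl K)) (J : Finset (Pg c)) (x : ι → K) : Prop :=
  ∀ P ∈ T, ∀ p ∉ J, At s P (some p) → ∀ i, x i ≠ 0 → P.ord (x i) = 0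

/-- `J` contains the coordinate pages, the other pages are reduced and carry no boundary -/
structure Od (s : Fin c → K) (y : Fin ρ → K) (T : Set (Pl K)) (J : Finset (Pg c))
    (κ : Pl K → ℤ) : Prop where
  co : ∀ (i : Fin c) (p : Pg c), p.l ∣ MvPolynomial.X i → p ∈ J
  od : ∀ P ∈ T, ∀ p ∉ J, At s P (some p) → mu s P (some p) = 1 ∧ cz s y P = 0 ∧ κ P = 0

/-- the pages outside of `I` are ordinary -/
structure Or (s : Fin c → K) (y : Fin ρ → K) (T : Set (Pl K)) (G : (Fin ρ → ℤ) →₀ K)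
    (κ : Pl K → ℤ) (I : Finset (Pg c)) : Prop where
  hg : Hg s y G
  ex : ∀ p ∉ I, ∃ P ∈ T, At s P (some p)
  od : Od s y T I κ
  y0 : Un s T I y
  g0 : Un s T I G

/-- two frames of the same action -/
def Eqf (s : Fin c → K) (y : Fin ρ → K) (y' : Fin ρ' → K) : Prop :=
  ρ' = ρ ∧ D.Rat (fr s y') ∧ (∀ P, cz s y' P = cz s y P) ∧
    ∃ e : (Fin ρ → ℤ) ≃+ (Fin ρ' → ℤ), ∀ m, Hm s y' (e m) = Hm s y m

/-- many pages see every direction -/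
def Wi (W : ℕ) (s : Fin c → K) (u : Fin ρ → K) (T : Set (Pl K)) (I J : Finset (Pg c)) : Prop :=
  ∀ ν : Fin ρ → ℤ, ν ≠ 0 → W ≤ {p | p ∈ I ∧ p ∉ J ∧ ∃ P ∈ T, ∃ P' ∈ T, At s P (some p) ∧
    At s P' (some p) ∧ (fun i => P.ord (u i)) ⬝ᵥ ν ≠ (fun i => P'.ord (u i)) ⬝ᵥ ν}.ncard

/-- the wide state -/
structure Sc (W q : ℕ) (ε : ℝ) (s : Fin c → K) (y : Fin r → K) (u : Fin ρ → K) (T : Set (Pl K))
    (G : (Fin (r + ρ) → ℤ) →₀ K) (κ : Pl K → ℤ) (Q : Pl K) (ξ : Pl K → ℝ) (I J : Finset (Pg c)) :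
    Prop where
  pk : Pk (c + r + ρ) q ε s (Fin.append y u) T (tot G) κ
  hg : Hg s (Fin.append y u) G
  g0 : G 0 ≠ 0
  rep : Rep s (Fin.append y u) T Q ξ
  pos : ∀ P ∈ T, ∀ p ∈ I, p ∉ J → At s P (some p) → 0 < ξ P
  od : Od s (Fin.append y u) T J κ
  y1 : Un s T J y
  u0 : Un s T I u
  wi : Wi W s u T I J

/-- `f` is the equation of the empty pages outside of `J` -/
def Ef (s : Fin c → K) (T : Set (Pl K)) (J : Finset (Pg c)) (f : K) : Prop :=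
  ∃ E : Finset (Pg c), (∀ p, p ∈ E ↔ p ∉ J ∧ ¬ ∃ P ∈ T, At s P (some p)) ∧ f = ∏ p ∈ E, lam s p

/-- the visible monomials -/
def Mo (s : Fin c → K) (y : Fin r → K) (J : Finset (Pg c)) (f φ : K) : Prop :=
  ∃ (b : ℂ) (n : Pg c →₀ ℤ) (v : Fin r → ℤ) (a : ℕ), b ≠ 0 ∧ n.support ⊆ J ∧
    φ = b • (Pq.hm s y n v / f ^ a)

/-- visible monomials generate the sections in the small field -/
structure Gn {E : ℕ} (s : Fin c → K) (y : Fin r → K) (T : Set (Pl K)) (J : Finset (Pg c)) (f : K)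
    (e : Fin k → Pl K) (s' : Fin E → Sb (fr s y)) (a' : Fin E → Fin k → ℤ) : Prop where
  ne : ∀ j, s' j ≠ 0
  mo : ∀ n : Fin E → ℕ, Mo s y J f (∏ j, (s' j : K) ^ n j)
  sec : ∀ (δ : Fin k → ℤ) (z : Sb (fr s y)), z ≠ 0 →
    (z ∈ Sp s' a' δ ↔ ∀ P ∈ T, 0 ≤ P.ord (z : K) + δ ⬝ᵥ Dr e P)

/-- the pages of the wide state -/
structure Pd (s : Fin c → K) (y : Fin r → K) (u : Fin ρ → K) (T : Set (Pl K))
    (I J : Finset (Pg c)) (e : Fin k → Pl K) (π : Wd.Pg (Pg c) (Sb (fr s y)) k ρ) : Prop where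
  hI : ∀ p, p ∈ π.I ↔ p ∈ I ∧ p ∉ J ∧ ∃ P ∈ T, At s P (some p)
  hV : ∀ p v, v ∈ π.V p ↔ ∃ P ∈ T, At s P (some p) ∧ v = fun i => P.ord (u i)
  hk : ∀ p ∈ π.I, ∀ m, (∀ v ∈ π.V p, 0 ≤ v ⬝ᵥ m + π.κ p m) ∧ ∃ v ∈ π.V p, v ⬝ᵥ m + π.κ p m = 0
  hl : ∀ p, (π.l p : K) = lam s p
  hb : ∀ p i, π.β p i = -(e i).ord (lam s p)
  ha : ∀ j i, π.α j i = -(e i).ord (u j)

end defs

/-- a property of a frame and a set of places -/
def ForA (p : ∀ (K : Type) [Field K] [Algebra ℂ K] (c ρ : ℕ), (Fin c → K) → (Fin ρ → K) →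
    Set (Pl K) → Prop) : Prop :=
  ∀ (K : Type) [Field K] [Algebra ℂ K] (c ρ : ℕ) (s : Fin c → K) (y : Fin ρ → K) (T : Set (Pl K)),
    p K c ρ s y T

/-- a property of a split frame and a set of places -/
def ForB (p : ∀ (K : Type) [Field K] [Algebra ℂ K] (c r ρ : ℕ), (Fin c → K) → (Fin r → K) →
    (Fin ρ → K) → Set (Pl K) → Prop) : Prop :=
  ∀ (K : Type) [Field K] [Algebra ℂ K] (c r ρ : ℕ) (s : Fin c → K) (y : Fin r → K) (u : Fin ρ → K)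
    (T : Set (Pl K)), p K c r ρ s y u T

/-- a property of a contraction of Fano type -/
def ForD (p : ∀ (_ : ℕ) (K : Type) [Field K] [Algebra ℂ K], Finset K → BD K → BD K → Prop) : Prop :=
  ∀ (n : ℕ) (K : Type) [Field K] [Algebra ℂ K] (u : Finset K) (Λ Γ Γ' : BD K), Dat n u Λ Γ Γ' →
    p n K u Λ Γ

/-! ### the tier -/

/-- **COX** -/
def COX : Prop := ForD fun n K _ _ u Λ _ => ∀ (k : ℕ) (e : Fin k → Pl K), Function.Injective e →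
  (∀ i, e i ∈ Tt n u Λ) → (∃ h δ, Eqv (Tt n u Λ) (Dr e) (cn K (n + 1)) h δ) →
    ∃ (N : ℕ) (σ : Fin N → K) (α : Fin N → Fin k → ℤ), Cox (Tt n u Λ) (Dr e) σ α

/-- **LOC**: some of the divisors are removed -/
def LOC : Prop := ∀ (K : Type) [Field K] [Algebra ℂ K] (d k k' N l q : ℕ) (ε : ℝ) (t : Fin d → K)
  (T X : Set (Pl K)) (e : Fin k → Pl K) (j : Fin k' → Fin k) (σ : Fin N → K) α (f : Fin l → _) h g
  δ b, Function.Injective e → Function.Injective j → X ⊆ range e → (∀ i, e i ∈ X ↔ i ∉ range j) →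
    Dx q ε t T (Dr e) σ α f h g δ b → ∃ (l' : ℕ) (f' : Fin l' → _),
      Dx q ε t (T \ X) (Dr (e ∘ j)) σ (fun i => α i ∘ j) f' h g (δ ∘ j) (b ∘ j)

/-- **AVT** -/
def AVT : Prop := ForD fun n _ _ _ u Λ Γ => ∀ (q : ℕ) (ε : ℝ) z g κ, 0 < q → 0 < ε →
  Lk n q Γ z (Tt n u Λ) g κ → (∀ R ∈ Tt n u Λ, dsc (n + 1) Γ R ≤ 0) →
    (∀ R, Ov u R → ε ≤ 1 + dsc (n + 1) Γ R) → NefO n _ u (-Γ) → Av (n + 1) q ε z (Tt n u Λ) g κ

/-- **BKS**: from the sections to the complement -/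
def BKS : Prop := ForD fun n _ _ _ u Λ Γ => ∀ (q m : ℕ) z g κ, 0 < q → 2 ≤ m →
  Lk n q Γ z (Tt n u Λ) g κ → (∀ Q, Ov u Q → Sec q m z (Tt n u Λ) g κ Q) → Cpl n (q * m) u Λ Γ

/-- **OVQ**: Hartogs -/
def OVQ : Prop := ForD fun n K _ _ u Λ _ => ∀ (Q : Pl K) (a : K), Ov u Q → a ≠ 0 →
  (∀ P ∈ Tt n u Λ, 0 ≤ P.ord a) → 0 ≤ Q.ord a

/-- **CD0**: the package of a pair -/
def CD0 : Prop := ForD fun n K _ _ u Λ Γ => ∀ (q c ρ : ℕ) (ε : ℝ) (ι : Type) (s : Fin c → K)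
  (y : Fin ρ → K) (w : ι → Prop) (P : ι → Pl K), 0 < q → 0 < ε → c + ρ = n + 1 → Fm s y w P →
    Function.Injective P → (∀ R, R ∈ Tt n u Λ ↔ ∃ E, w E ∧ P E = R) →
    (∀ R ∈ Tt n u Λ, dsc (n + 1) Γ R ≤ 0 ∧ ∃ m : ℤ, q * dsc (n + 1) Γ R = m) →
    (∀ R, Ov u R → ε ≤ 1 + dsc (n + 1) Γ R) → NefO n K u (-Γ) →
    ∃ g κ, Lk n q Γ (cz s y) (Tt n u Λ) g κ ∧ Pk (n + 1) q ε s y (Tt n u Λ) g κ

/-! ### the reduction to the wide state -/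

/-- **ORD** -/
def ORD : Prop := ForA fun _ _ _ _ _ s y T => ∀ d q ε g κ, Pk d q ε s y T g κ →
  ∃ G I, g = tot G ∧ Or s y T G κ I

/-- **GT**: Goldman and Tucker -/
def GT : Prop := ForA fun K _ _ _ _ s y T => ∀ G κ I (Q : Pl K), Fm s y (· ∈ T) id →
  Or s y T G κ I → (∀ a : K, a ≠ 0 → (∀ P ∈ T, 0 ≤ P.ord a) → 0 ≤ Q.ord a) →
    ∃ (X : Set (Pl K)) (χ : K) (ξ : Pl K → ℝ), X.Finite ∧ X ⊆ Kt s y T I ∧ χ ≠ 0 ∧
      (∀ P ∈ T, 0 ≤ P.ord χ) ∧ (∀ P ∈ X, 0 < P.ord χ) ∧ Q.ord χ = 0 ∧ Rep s y (T \ X) Q ξ ∧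
      ∀ P ∈ Kt s y (T \ X) I, 0 < ξ P

/-- **DRP**: invariant primes are dropped -/
def DRP : Prop := ForA fun K _ _ _ _ s y T => ∀ d q ε g κ (X : Set (Pl K)), Pk d q ε s y T g κ →
  X.Finite → (∀ P ∈ X, ¬ Tv s y P) → Pk d q ε s y (T \ X) g κ

/-- **RPR**: the repair, and multiples -/
def RPR : Prop := ∀ (K : Type) [Field K] [Algebra ℂ K] (q m : ℕ) z (T : Set (Pl K)) (g : K) κ Q,
  g ≠ 0 → (∀ (X : Set (Pl K)) (χ : K), X.Finite → χ ≠ 0 → (∀ P ∈ T, 0 ≤ P.ord χ) →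
    (∀ P ∈ X, 0 < P.ord χ) → Q.ord χ = 0 → Sec q m z (T \ X) g κ Q → Sec q m z T g κ Q) ∧
    ∀ m', 0 < m' → Sec q m z T g κ Q → Sec q (m * m') z T g κ Q

/-- **PAGE**: few special pages -/
def PAGE : Prop := ∀ d q : ℕ, 0 < q → ∃ C : ℕ, ForA fun _ _ _ _ _ s y T => ∀ (ε : ℝ) G κ I Q ξ,
  0 < ε → Pk d q ε s y T (tot G) κ → Or s y T G κ I → Rep s y T Q ξ →
    (∀ P ∈ Kt s y T I, 0 < ξ P) →
    ∃ u J, G u ≠ 0 ∧ J.card ≤ C ∧ Od s y T J fun P => κ P + P.ord (G u)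

/-- **NRM**: division by a term -/
def NRM : Prop := ForA fun _ _ _ _ _ s y T => ∀ d q ε G κ u, Pk d q ε s y T (tot G) κ → Hg s y G →
  G u ≠ 0 → ∃ G', Hg s y G' ∧ G' 0 ≠ 0 ∧ Pk d q ε s y T (tot G') (fun P => κ P + P.ord (G u)) ∧
    ∀ m z Q, Sec q m z T (tot G') (fun P => κ P + P.ord (G u)) Q → Sec q m z T (tot G) κ Q

/-- **SPL**: the gap and the adapted frame -/
def SPL : Prop := ∀ (W : ℕ → ℕ) (d C₀ : ℕ), ∃ C : ℕ, ForA fun K _ _ c ρ s y T =>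
  ∀ κ (I J₀ : Finset (Pg c)), c + ρ = d → Fm s y (· ∈ T) id → J₀.card ≤ C₀ → Od s y T J₀ κ →
    Un s T I y → ∃ (J : Finset (Pg c)) (r ρ' : ℕ) (y' : Fin r → K) (u : Fin ρ' → K), J₀ ⊆ J ∧
      J.card ≤ C ∧ Eqf s y (Fin.append y' u) ∧ Un s T J y' ∧ Un s T I u ∧ Wi (W J.card) s u T I J

/-- **TWS**: the twist by invariant functions -/
def TWS : Prop := ForA fun K _ _ _ ρ s y _ => ∀ φ : Fin ρ → K, D.Rat (fr s y) →
  (∀ i, φ i ≠ 0 ∧ φ i ∈ IntermediateField.adjoin ℂ (range s)) → D.Rat (fr s fun i => φ i * y i) ∧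
    (∀ P, cz s (fun i => φ i * y i) P = cz s y P) ∧ ∀ m, Hm s (fun i => φ i * y i) m = Hm s y m

/-- **EQF**: change of the frame -/
def EQF : Prop := ForA fun K _ _ _ _ s y T => ∀ (ρ' : ℕ) (y' : Fin ρ' → K), Eqf s y y' →
  (∀ d q ε g κ, Pk d q ε s y T g κ → Pk d q ε s y' T g κ) ∧
    (∀ Q ξ, Rep s y T Q ξ → Rep s y' T Q ξ) ∧ (∀ J κ, Od s y T J κ → Od s y' T J κ) ∧
    ∀ G, Hg s y G → G 0 ≠ 0 → ∃ G', Hg s y' G' ∧ G' 0 ≠ 0 ∧ tot G' = tot G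

/-! ### the wide state -/

/-- **CAR**: Caratheodory -/
def CAR : Prop := ForA fun K _ _ _ ρ s y T => ∀ J, Fm s y (· ∈ T) id → (Kt s y T J).Finite ∧
  (∃ f, Ef s T J f) ∧ ∀ Q ξ, Rep s y T Q ξ → ∃ (ξ' : Pl K → ℝ) (t : Finset (Pl K)),
    Rep s y T Q ξ' ∧ t.card ≤ ρ + J.card + 1 ∧ ↑t ⊆ Kt s y T J ∧
      (∀ P ∈ Kt s y T J, ξ' P ≠ 0 → P ∈ t) ∧ ∀ P ∉ Kt s y T J, ξ' P = ξ P

/-- **REG**: regular functions at `Q` -/
def REG : Prop := ForA fun K _ _ _ _ s y T => ∀ Q ξ (φ : K), Fm s y (· ∈ T) id → Rep s y T Q ξ →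
  φ ≠ 0 → (∀ P ∈ T, 0 ≤ P.ord φ) → 0 ≤ Q.ord φ ∧ ∀ P, 0 < ξ P → 0 < P.ord φ → 0 < Q.ord φ

/-- **CMP**: the components over the small field -/
def CMP : Prop := ForB fun _ _ _ _ _ ρ s y u _ => ∀ G, D.Rat (fr s (Fin.append y u)) →
  Hg s (Fin.append y u) G → ∃ γ : (Fin ρ → ℤ) →₀ Sb (fr s y), lv u γ = tot G ∧
    (∀ m, hm u (γ m) m ∈ Submodule.span ℂ (range G)) ∧ (G 0 ≠ 0 → γ 0 ≠ 0)

/-- **IND**: the primes over one page agree on the small field -/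
def IND : Prop := ForB fun K _ _ _ _ _ s y u T => ∀ J κ, Fm s (Fin.append y u) (· ∈ T) id →
  Od s (Fin.append y u) T J κ → Un s T J y → ∀ p ∉ J, ∀ P ∈ T, ∀ P' ∈ T, At s P (some p) →
    At s P' (some p) → ∀ z : Sb (fr s y), z ≠ 0 → P.ord (z : K) = P'.ord (z : K)

/-- **GEN**: the generators -/
def GEN : Prop := ForB fun K _ _ c r _ s y u T => ∀ J κ f (k : ℕ) (e : Fin k → Pl K),
  Fm s (Fin.append y u) (· ∈ T) id → Od s (Fin.append y u) T J κ → Un s T J y → Ef s T J f →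
    Function.Injective e → range e = Kt s (Fin.append y u) T J →
    ∃ (E : ℕ) (s' : Fin E → Sb (fr s y)) (a' : Fin E → Fin k → ℤ),
      E ≤ k + 2 * (J.card + c + r + 1) ∧ Gn s y T J f e s' a'

/-- **PDX**: the pages exist -/
def PDX : Prop := ForB fun K _ _ _ _ _ s y u T => ∀ W I J (k : ℕ) (e : Fin k → Pl K),
  Fm s (Fin.append y u) (· ∈ T) id → Wi W s u T I J → ∃ π, Pd s y u T I J e π ∧ π.Wid W

/-- **WV1** -/
def WV1 : Prop := ForB fun K _ _ _ _ _ s y u T => ∀ W q ε G κ Q ξ I J f (k N E : ℕ)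
  (e : Fin k → Pl K) π (σ : Fin N → K) α (s' : Fin E → _) a', Sc W q ε s y u T G κ Q ξ I J →
    Function.Injective e → range e = Kt s (Fin.append y u) T J → Pd s y u T I J e π →
    Cox T (Dr e) σ α → Gn s y T J f e s' a' → Wv π u σ α s' a'

/-- **WV2** -/
def WV2 : Prop := ForB fun K _ _ _ _ _ s y u T => ∀ W q ε G κ Q ξ I J (k N : ℕ)
  (e : Fin k → Pl K) π (σ : Fin N → K) α, 1 ≤ W → Sc W q ε s y u T G κ Q ξ I J →
    Function.Injective e → range e = Kt s (Fin.append y u) T J → Pd s y u T I J e π → π.Wid W →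
    Cox T (Dr e) σ α → Ps π u σ α Q

/-- **MNU**: `MNW`, uniform and with `ρ = 0` -/
def MNU : Prop := ∀ (B q : ℕ) (ε : ℝ), 0 < q → 0 < ε → ∃ W m : ℕ, 1 ≤ W ∧ 2 ≤ m ∧
  ∀ (d k ρ E : ℕ) (K₁ K₀ : Type) [Field K₁] [Algebra ℂ K₁] [Field K₀] [Algebra ℂ K₀]
    [Algebra K₁ K₀] [IsScalarTower ℂ K₁ K₀] (N c : ℕ) (ι : Type) (y : Fin d → K₁) (u : Fin ρ → K₀)
    T D (s : Fin N → K₀) a (f : Fin c → _) η γ δ b (π : Wd.Pg ι K₁ k ρ) (s' : Fin E → K₁) a' Q,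
    d + ρ ≤ B → k ≤ B → E ≤ B → (∃ e₀ : Fin k → ℤ, δ = (q : ℤ) • e₀ + b) → Ext K₁ d u →
    Wx W q ε y u T D s a f η γ δ b π s' a' Q →
    MN q m (zt y u) (fun j => algebraMap K₁ K₀ (s' j)) a' (hm u η 1 ^ q * lv u γ) δ Q

/-- **MON**: few kept primes -/
def MON : Prop := ∀ (B q : ℕ) (ε : ℝ), 0 < q → 0 < ε → ∃ W m : ℕ, 2 ≤ m ∧
  ForB fun K _ _ c r ρ s y u T => ∀ G κ Q ξ I J f, c + r + ρ ≤ B → J.card ≤ B →
    Sc W q ε s y u T G κ Q ξ I J → Ef s T J f → (Kt s (Fin.append y u) T J).ncard ≤ B →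
    ∃ φ : K, Mo s y J f φ ∧ (∀ P ∈ Kt s (Fin.append y u) T J, m * κ P ≤ P.ord φ) ∧
      Q.ord (tot G ^ m * φ) < q * m * (cz s (Fin.append y u) Q + 1)

/-- **WID**: the wide state -/
def WID : Prop := ∀ (B q : ℕ) (ε : ℝ), 0 < q → 0 < ε → ∃ W m : ℕ, 2 ≤ m ∧
  ForB fun _ _ _ c r ρ s y u T => ∀ G κ Q ξ I J, c + r + ρ ≤ B → J.card ≤ B →
    Sc W q ε s y u T G κ Q ξ I J → Sec q m (cz s (Fin.append y u)) T (tot G) κ Q

/-- **PQ**: the theorem at one place -/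
def PQ : Prop := ∀ (d q : ℕ) (ε : ℝ), 0 < q → 0 < ε → ∃ m : ℕ, 2 ≤ m ∧
  ForA fun K _ _ _ _ s y T => ∀ g κ (Q : Pl K), Pk d q ε s y T g κ →
    (∀ a : K, a ≠ 0 → (∀ P ∈ T, 0 ≤ P.ord a) → 0 ≤ Q.ord a) → Sec q m (cz s y) T g κ Q

/-! ### the glue -/

/-- **AVR** -/
def AVR : Prop := COX → LOC → AVT

/-- **BKR** -/
def BKR : Prop := COX → BKS

/-- **CDR** -/
def CDR : Prop := AVT → CD0

/-- **SPR** -/
def SPR : Prop := TWS → SPL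

/-- **W1R** -/
def W1R : Prop := CMP → IND → WV1

/-- **W2R** -/
def W2R : Prop := REG → WV2

/-- **MUR** -/
def MUR : Prop := MNW → MNU

/-- **MOR** -/
def MOR : Prop := CAR → CMP → GEN → PDX → WV1 → WV2 → MNU → MON

/-- **HLR**: integer Helly -/
def HLR : Prop := DRP → CAR → MON → WID

/-- **PQR** -/
def PQR : Prop := ORD → GT → DRP → RPR → PAGE → NRM → SPL → EQF → WID → PQ

/-- **WTR** -/
def WTR : Prop := CD0 → BKS → OVQ → PQ → WT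

end Vale.Agent.P283R.Wc
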