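import Vale.Agent.P283R.Wc.St
import Vale.Agent.P283R.Pq.All

/-!
# P283R, block WD, the last layer: the sections are free over the small ring
-/

open Set

noncomputable section

namespace Vale.Agent.P283R.Wc

open Vale.Agent.P287D Vale.Agent.P283M Vale.Agent.P297Z Cx
open Pq (At lam fr Pg Tv tot)
open Wd (Sb)

theorem w1r21 : W1R := by
  classical
  intro cmp ind K _ _ c r ρ s y u T W q ε G κ Q ξ I J f k N E e π σ α s' a' sc he re pd cx gn
  have fm := sc.pk.fm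
  obtain ⟨-, f2, -, -, -, -, -, -, f9, -⟩ := Pq.fac c _ K s _ fm.rat
  have u0 : ∀ i, u i ≠ 0 := fun i => by
    have := fm.rat.ind.ne_zero (Fin.natAdd c (Fin.natAdd r i))
    rwa [fr, Fin.append_right, Fin.append_right] at this
  have l0 : ∀ p, lam s p ≠ 0 := fun p z => (f2 (.single p 1) 0).1 (by simp [Pq.hm, z])
  have l1 : ∀ p, π.l p ≠ 0 := fun p z => l0 p (by rw [← pd.hl, z]; rfl)
  have d1 : ∀ (δ : Fin k → ℤ) i, δ ⬝ᵥ Dr e (e i) = δ i := fun δ i => by
    simp [Dr, dotProduct, he.eq_iff]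
  have d0 : ∀ (δ : Fin k → ℤ) P, P ∉ Kt s (Fin.append y u) T J → δ ⬝ᵥ Dr e P = 0 := fun δ P h =>
    Finset.sum_eq_zero fun i _ => by
      rw [Dr, if_neg fun z => h (re ▸ ⟨i, z.symm⟩), mul_zero]
  have cs : ∀ P ∈ T, (∃ i, e i = P) ∨ Tv s (Fin.append y u) P ∨ ∃ p ∉ J, At s P (some p) :=
    fun P h => by
      by_contra z
      push Not at z
      obtain ⟨i, w⟩ : P ∈ range e := re ▸ ⟨h, z.2.1, z.2.2⟩
      exact z.1 i w
  have dT : ∀ (δ : Fin k → ℤ) P, Tv s (Fin.append y u) P → δ ⬝ᵥ Dr e P = 0 := fun δ P h =>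
    d0 δ P fun z => z.2.1 h
  have dA : ∀ (δ : Fin k → ℤ) P, ∀ p ∉ J, At s P (some p) → δ ⬝ᵥ Dr e P = 0 := fun δ P p a h =>
    d0 δ P fun z => z.2.2 p a h
  have oA : ∀ P ∈ T, ∀ p ∉ J, At s P (some p) → ∀ p', P.ord (lam s p') = if p' = p then 1 else 0 :=
    fun P h p a b p' => by
      rw [b.2, (sc.od.od P h p a b).1, one_mul, Pq.od, Finsupp.single_apply]
  refine ⟨gn.ne, fun p _ => ⟨l1 p, (gn.sec _ _ (l1 p)).2 fun P h => ?_⟩, fun δ φ hφ => ?_,
    fun δ m z => ?_⟩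
  · rw [pd.hl]
    obtain ⟨i, rfl⟩ | t | ⟨p', a, b⟩ := cs P h
    · rw [d1, pd.hb, add_neg_cancel]
    · rw [dT _ _ t, ((f9 P).1 t).1 p, add_zero]
    · rw [dA _ _ _ a b, oA P h _ a b]
      split_ifs <;> simp
  · rcases eq_or_ne φ 0 with rfl | φ0
    · exact ⟨0, lv_zero _, fun m => by rw [Finsupp.zero_apply, hm_zero]; exact hφ⟩
    have w := (cx.sec _ _ φ0).1 hφ
    obtain ⟨H, hH, rfl⟩ := fm.lau φ φ0 fun P h t => by
      have := w P h
      rwa [dT _ P t, add_zero] at this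
    obtain ⟨γ, e1, e2, -⟩ := cmp K c r ρ s y u T H fm.rat hH
    refine ⟨γ, e1, fun m => Submodule.span_le.2 ?_ (e2 m)⟩
    rintro _ ⟨v, rfl⟩
    rcases eq_or_ne (H v) 0 with z | z
    · rw [z]
      exact zero_mem _
    refine (cx.sec _ _ z).2 fun P h => ?_
    by_cases t : Tv s (Fin.append y u) P
    · rw [t _ _ (hH v) z, dT _ _ t, add_zero]
    · exact (w P h).trans (add_le_add_left (fm.inv P h t H hH v z) _)
  rcases eq_or_ne z 0 with rfl | z0
  · rw [hm_zero, zero_div]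
    exact iff_of_true (zero_mem _) (zero_mem _)
  have c0 : π.cc m ≠ 0 := Finset.prod_ne_zero_iff.2 fun p _ => zpow_ne_zero _ (l1 p)
  have z1 : z / π.cc m ≠ 0 := div_ne_zero z0 c0
  let th : Pl K → ℤ := fun P =>
    ∑ p ∈ π.I, π.κ p m * P.ord (lam s p) + m ⬝ᵥ fun i => P.ord (u i)
  have eo : ∀ P : Pl K, P.ord (hm u z m) = P.ord ((z / π.cc m : Sb (fr s y)) : K) + th P :=
    fun P => by
      have e1 : hm u z m = algebraMap _ K (z / π.cc m) * hm u (π.cc m) m := by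
        rw [hm, hm, ← mul_assoc, ← map_mul, div_mul_cancel₀ _ c0]
      have e2 : algebraMap _ K (π.cc m) = ∏ p ∈ π.I, lam s p ^ π.κ p m := by
        rw [Wd.Pg.cc, map_prod]
        exact Finset.prod_congr rfl fun p _ => by rw [map_zpow₀, ← pd.hl]; rfl
      rw [e1, Pl.ord_mul _ ((map_ne_zero _).2 z1) (hm_ne u0 c0 _), ord_hm u0 P c0, e2,
        A0r.ord_prod P _ _ fun p => zpow_ne_zero _ (l0 p)]
      simp only [Pl.ord_zpow]
      rfl
  have k1 : ∀ i, th (e i) + π.al m i = 0 := fun i => by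
    simp only [th, Wd.Pg.al, Pi.add_apply, Finset.sum_apply, Pi.smul_apply, smul_eq_mul, pd.ha,
      pd.hb, dotProduct]
    simp only [mul_neg, Finset.sum_neg_distrib]
    ring
  have k2 : ∀ P, Tv s (Fin.append y u) P → th P = 0 := fun P t => by
    obtain ⟨a, b⟩ := (f9 P).1 t
    have : ∀ i, P.ord (u i) = 0 := fun i => by simpa using b (Fin.natAdd r i)
    simp [th, a _, this, dotProduct]
  have k3 : ∀ P ∈ T, ∀ p ∉ J, At s P (some p) → th P =
      (if p ∈ π.I then π.κ p m else 0) + (fun i => P.ord (u i)) ⬝ᵥ m := fun P h p a b => by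
    simp only [th, oA P h p a b, mul_ite, mul_one, mul_zero, Finset.sum_ite_eq',
      dotProduct_comm m]
  have k4 : ∀ P ∈ T, ∀ p ∉ J, At s P (some p) →
      0 ≤ th P ∧ ∃ P' ∈ T, At s P' (some p) ∧ th P' = 0 := fun P h p a b => by
    by_cases g : p ∈ π.I
    · obtain ⟨g1, v, hv, g2⟩ := pd.hk p g m
      obtain ⟨P', h', b', rfl⟩ := (pd.hV p v).1 hv
      rw [k3 P h p a b, if_pos g, add_comm]
      exact ⟨g1 _ ((pd.hV p _).2 ⟨P, h, b, rfl⟩), P', h', b',
        by rw [k3 P' h' p a b', if_pos g, add_comm, g2]⟩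
    · have : th P = 0 := by
        rw [k3 P h p a b, if_neg g, zero_add]
        exact Finset.sum_eq_zero fun i _ => mul_eq_zero_of_left
          (sc.u0 P h p (fun z => g ((pd.hI p).2 ⟨z, a, P, h, b⟩)) b i (u0 i)) _
      exact ⟨this.ge, P, h, b, this⟩
  rw [cx.sec _ _ (hm_ne u0 z0 _), gn.sec _ _ z1]
  simp only [eo]
  refine ⟨fun w P h => ?_, fun w P h => ?_⟩
  · obtain ⟨i, rfl⟩ | t | ⟨p, a, b⟩ := cs P h
    · have a1 := w _ h
      have a2 := k1 i
      rw [d1] at a1 ⊢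
      rw [Pi.sub_apply]
      omega
    · have a1 := w _ h
      rw [dT _ _ t, k2 P t, add_zero] at a1
      rwa [dT _ _ t]
    · obtain ⟨P', h', b', o⟩ := (k4 P h p a b).2
      have a1 := w _ h'
      rw [dA _ _ _ a b', o, add_zero] at a1
      rwa [dA _ _ _ a b, ind K c r ρ s y u T J κ fm sc.od sc.y1 p a P h P' h' b b' _ z1]
  · have a1 := w _ h
    obtain ⟨i, rfl⟩ | t | ⟨p, a, b⟩ := cs P h
    · have a2 := k1 i
      rw [d1] at a1 ⊢
      rw [Pi.sub_apply] at a1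
      omega
    · rw [dT _ _ t] at a1 ⊢
      rwa [k2 P t, add_zero]
    · rw [dA _ _ _ a b, add_zero] at a1 ⊢
      exact add_nonneg a1 (k4 P h p a b).1

end Vale.Agent.P283R.Wc
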