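import Vale.Agent.P283R.Wc.St
import Vale.Agent.P283R.Pq.All
import Vale.Agent.P283R.Wd.Wv70

/-!
# P283R, block WD, last layer: the row W1R
-/

open Set

noncomputable section

namespace Vale.Agent.P283R.Wc

open Vale.Agent.P287D Vale.Agent.P283M Cx Cy Vale.Agent.P297Z
open Pq (Fm Hm Hg tot Tv At cz lam mu fr Pg)
open Wd (Sb sb Wv)

namespace W39

variable {K : Type} [Field K] [Algebra ℂ K] {k : ℕ} {e : Fin k → Pl K}

theorem dr_e (h : Function.Injective e) (a : Fin k → ℤ) (i : Fin k) : a ⬝ᵥ Dr e (e i) = a i := by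
  simp [dotProduct, Dr, h.eq_iff]

theorem dr_0 {P : Pl K} (h : P ∉ range e) (a : Fin k → ℤ) : a ⬝ᵥ Dr e P = 0 := by
  have : ∀ i, P ≠ e i := fun i x => h ⟨i, x.symm⟩
  simp [dotProduct, Dr, this]

end W39

open W39

/-- **W1R** -/
theorem w1r39 : W1R := by
  intro _ ind K _ _ c r ρ s y u T W q ε G κ Q ξ I J f k N E e π σ α s' a' sc inj rg pd cx gn
  classical
  have fm := sc.pk.fm
  obtain ⟨-, -, -, -, f5, -, -, -, f9, -⟩ := Pq.fac c _ K s _ fm.rat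
  have u0 : ∀ i, u i ≠ 0 := fun i => by
    have := fm.rat.ind.ne_zero (Fin.natAdd c (Fin.natAdd r i))
    rwa [fr, Fin.append_right, Fin.append_right] at this
  have cs : ∀ P ∈ T, (∃ i, e i = P) ∨ (∀ a, a ⬝ᵥ Dr e P = 0) ∧
      (Tv s (Fin.append y u) P ∨ ∃ p ∉ J, At s P (some p)) := fun P hP => by
    refine (em (P ∈ range e)).imp id fun x => ⟨dr_0 x, ?_⟩
    rw [rg] at x
    by_contra! n
    exact x ⟨hP, n.1, n.2⟩
  have nk : ∀ P, Tv s (Fin.append y u) P ∨ (∃ p ∉ J, At s P (some p)) → ∀ a, a ⬝ᵥ Dr e P = 0 :=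
    fun P x => dr_0 (rg ▸ fun z => x.elim z.2.1 fun ⟨p, n, t⟩ => z.2.2 p n t)
  have l0 : ∀ p ∈ π.I, lam s p ≠ 0 := fun p hp x => by
    obtain ⟨-, -, P, -, t, -⟩ := (pd.hI p).1 hp
    simp [mu, x] at t
  have l1 : ∀ p ∈ π.I, π.l p ≠ 0 := fun p hp x => l0 p hp (by rw [← pd.hl, x]; rfl)
  have at' : ∀ P ∈ T, ∀ p ∉ J, At s P (some p) → ∀ p', P.ord (lam s p') = if p' = p then 1 else 0 :=
    fun P hP p n t p' => by
      rw [t.2, (sc.od.od P hP p n t).1, one_mul, Pq.od, Finsupp.single_apply]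
  have c0 : ∀ m, π.cc m ≠ 0 := fun m =>
    Finset.prod_ne_zero_iff.2 fun p hp => zpow_ne_zero _ (l1 p hp)
  have oc : ∀ m (P : Pl K), P.ord (hm u (π.cc m) m) =
      ∑ p ∈ π.I, π.κ p m * P.ord (lam s p) + (fun i => P.ord (u i)) ⬝ᵥ m := fun m P => by
    have : algebraMap (Sb (fr s y)) K (π.cc m) = ∏ p ∈ π.I, lam s p ^ π.κ p m := by
      rw [Wd.Pg.cc, map_prod]
      exact Finset.prod_congr rfl fun p _ => by rw [map_zpow₀, ← pd.hl]; rfl
    rw [hm, Pl.ord_mul _ ((map_ne_zero _).2 (c0 m)) (To.mon_ne u0 m), To.ord_mon P u0, this,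
      P.ord_prod _ fun p hp => zpow_ne_zero _ (l0 p hp)]
    simp only [Pl.ord_zpow, dotProduct, mul_comm]
  have k1 : ∀ m i, (e i).ord (hm u (π.cc m) m) + π.al m i = 0 := fun m i => by
    simp [oc, Wd.Pg.al, pd.hb, pd.ha, dotProduct, mul_comm]
  have k2 : ∀ m P, Tv s (Fin.append y u) P → P.ord (hm u (π.cc m) m) = 0 := fun m P t => by
    obtain ⟨x, z⟩ := (f9 P).1 t
    have : ∀ i, P.ord (u i) = 0 := fun i => by simpa using z (Fin.natAdd r i)
    simp [oc, x _, this, dotProduct]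
  have k0 : ∀ m, ∀ P ∈ T, ∀ p ∉ J, At s P (some p) → P.ord (hm u (π.cc m) m) =
      (fun i => P.ord (u i)) ⬝ᵥ m + if p ∈ π.I then π.κ p m else 0 := fun m P hP p n t => by
    simp [oc, at' P hP p n t, add_comm]
  have k3 : ∀ m, ∀ P ∈ T, ∀ p ∉ J, At s P (some p) → 0 ≤ P.ord (hm u (π.cc m) m) ∧
      ∃ P' ∈ T, At s P' (some p) ∧ P'.ord (hm u (π.cc m) m) = 0 := fun m P hP p n t => by
    by_cases b : p ∈ π.I
    · obtain ⟨x, v, hv, z⟩ := pd.hk p b m
      obtain ⟨P', hP', t', rfl⟩ := (pd.hV p v).1 hv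
      refine ⟨?_, P', hP', t', by rw [k0 m P' hP' p n t', if_pos b, z]⟩
      rw [k0 m P hP p n t, if_pos b]
      exact x _ ((pd.hV p _).2 ⟨P, hP, t, rfl⟩)
    · have : P.ord (hm u (π.cc m) m) = 0 := by
        have := fun i => sc.u0 P hP p (fun x => b ((pd.hI p).2 ⟨x, n, P, hP, t⟩)) t i (u0 i)
        simp [k0 m P hP p n t, b, this, dotProduct]
      exact ⟨this.ge, P, hP, t, this⟩
  refine ⟨gn.ne, fun p hp => ⟨l1 p hp, (gn.sec _ _ (l1 p hp)).2 fun P hP => ?_⟩,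
    fun a φ hφ => ?_, fun a m z => ?_⟩
  · rw [pd.hl]
    rcases cs P hP with ⟨i, rfl⟩ | ⟨v, t | ⟨p', n, t⟩⟩
    · rw [dr_e inj, pd.hb, add_neg_cancel]
    · rw [v, ((f9 P).1 t).1 p, add_zero]
    · rw [v, at' P hP p' n t]
      split_ifs <;> simp
  · simpa only [Fin.append_right] using Wd.G70.cmp70 Pq.fac
      (fun i => sb (fr s y) (Fin.castAdd r i)) (fun i => sb (fr s y) (Fin.natAdd c i))
      (fun i => (Fin.append_left s y i).symm)
      (fun i => (Fin.append_left y u i).trans (Fin.append_right s y i).symm) fm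
      (fun P => a ⬝ᵥ Dr e P) (fun P _ t => nk P (.inl t) a) _ (cx.sec a) hφ
  rcases eq_or_ne z 0 with rfl | z0
  · rw [Cx.hm_zero, zero_div]
    exact iff_of_true (zero_mem _) (zero_mem _)
  have z1 : z / π.cc m ≠ 0 := div_ne_zero z0 (c0 m)
  have eo : ∀ P : Pl K, P.ord (hm u z m) =
      P.ord (algebraMap (Sb (fr s y)) K (z / π.cc m)) + P.ord (hm u (π.cc m) m) := fun P => by
    rw [← Pl.ord_mul _ ((map_ne_zero _).2 z1) (Cx.hm_ne u0 (c0 m) _), hm, hm,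
      ← mul_assoc, ← map_mul, div_mul_cancel₀ _ (c0 m)]
  rw [cx.sec _ _ (Cx.hm_ne u0 z0 _), gn.sec _ _ z1]
  simp only [eo, IntermediateField.algebraMap_apply]
  generalize z / π.cc m = w at z1
  refine ⟨fun h P hP => ?_, fun h P hP => ?_⟩
  · have a1 := h P hP
    rcases cs P hP with ⟨i, rfl⟩ | ⟨v, t | ⟨p, n, t⟩⟩
    · have a2 := k1 m i
      rw [dr_e inj] at a1 ⊢
      rw [Pi.sub_apply]
      omega
    · rw [v, k2 m P t, add_zero] at a1
      rwa [v]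
    · obtain ⟨P', hP', t', o⟩ := (k3 m P hP p n t).2
      have a2 := h P' hP'
      rw [nk P' (.inr ⟨p, n, t'⟩), o, add_zero] at a2
      rwa [v, ind K c r ρ s y u T J κ fm sc.od sc.y1 p n P hP P' hP' t t' _ z1]
  · have a1 := h P hP
    rcases cs P hP with ⟨i, rfl⟩ | ⟨v, t | ⟨p, n, t⟩⟩
    · have a2 := k1 m i
      rw [dr_e inj] at a1 ⊢
      rw [Pi.sub_apply] at a1
      omega
    · rw [v] at a1 ⊢
      rwa [k2 m P t, add_zero]
    · rw [v, add_zero] at a1 ⊢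
      exact add_nonneg a1 (k3 m P hP p n t).1

end Vale.Agent.P283R.Wc
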