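import Vale.Agent.P283R.Wc.St
import Vale.Agent.P283R.Pq.All
import Vale.Agent.P283R.Wd.Wv70

/-!
# P283R, block WD, the last layer: the sections are free over the small ring
-/

open Set

noncomputable section

namespace Vale.Agent.P283R.Wc

open Vale.Agent.P287D Vale.Agent.P283M Cx Cy
open Pq (Fm Tv At cz lam mu fr Pg)
open Wd (Sb sb Wv)

namespace W46

variable {K : Type} [Field K] [Algebra ℂ K] {k : ℕ}

theorem dr_self {e : Fin k → Pl K} (h : Function.Injective e) (δ : Fin k → ℤ) (i : Fin k) :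
    δ ⬝ᵥ Dr e (e i) = δ i := by
  simp [Dr, dotProduct, h.eq_iff]

theorem dr_not {e : Fin k → Pl K} {P : Pl K} (h : P ∉ range e) (δ : Fin k → ℤ) :
    δ ⬝ᵥ Dr e P = 0 :=
  Finset.sum_eq_zero fun i _ => by rw [Dr, if_neg fun t => h ⟨i, t.symm⟩, mul_zero]

theorem ord_fp {ι : Type} (P : Pl K) (I : Finset ι) {l : ι → K} (h : ∀ p, l p ≠ 0) (n : ι → ℤ) :
    P.ord (∏ p ∈ I, l p ^ n p) = ∑ p ∈ I, n p * P.ord (l p) := by
  rw [← Finset.prod_coe_sort, ← Finset.sum_coe_sort]
  exact To.ord_mon P (z := fun p : I => l p) (fun p => h p) fun p => n p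

end W46

open W46 in
theorem w1r46 : W1R := by
  classical
  intro _ ind K _ _ c r ρ s y u T W q ε G κ Q ξ I J f k N E e π σ α s' a' x inj rg pd cx gn
  have fm := x.pk.fm
  obtain ⟨-, f2, -, -, -, f6, -, -, f9, -⟩ := Pq.fac c _ K s _ fm.rat
  have el : ∀ p, Pq.hm s (Fin.append y u) (Finsupp.single p 1) 0 = lam s p := fun p => by
    simp [Pq.hm, To.mon]
  have l0 : ∀ p, lam s p ≠ 0 := fun p => el p ▸ (f2 _ _).1
  have l1 : ∀ p, π.l p ≠ 0 := fun p z => l0 p (by rw [← pd.hl, z]; rfl)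
  have u0 : ∀ i, u i ≠ 0 := fun i => by
    have := fm.rat.ind.ne_zero (Fin.natAdd c (Fin.natAdd r i))
    rwa [fr, Fin.append_right, Fin.append_right] at this
  have ol : ∀ P p p', At s P (some p) → P.ord (lam s p') = if p' = p then mu s P (some p) else 0 :=
    fun P p p' a => by
      rw [a.2, Pq.od, Finsupp.single_apply, mul_ite, mul_one, mul_zero]
  have h2 : ∀ P ∈ T, P ∉ range e → Tv s (Fin.append y u) P ∨ ∃ p ∉ J, At s P (some p) :=
    fun P t n => by
      by_contra z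
      push Not at z
      exact n (rg ▸ ⟨t, z.1, z.2⟩)
  have tv : ∀ P, Tv s (Fin.append y u) P → P ∉ range e := fun P v n => (rg ▸ n).2.1 v
  have nk : ∀ P, ∀ p ∉ J, At s P (some p) → P ∉ range e := fun P p t a n => (rg ▸ n).2.2 p t a
  have c0 : ∀ m, π.cc m ≠ 0 := fun m => Finset.prod_ne_zero_iff.2 fun p _ => zpow_ne_zero _ (l1 p)
  have ot : ∀ m (P : Pl K), P.ord (hm u (π.cc m) m) =
      ∑ p ∈ π.I, π.κ p m * P.ord (lam s p) + (fun i => P.ord (u i)) ⬝ᵥ m := fun m P => by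
    rw [ord_hm u0 P (c0 m), dotProduct_comm, ← ord_fp P π.I l0, Wd.Pg.cc, map_prod]
    simp only [map_zpow₀, ← pd.hl]
    rfl
  have k1 : ∀ m i, (e i).ord (hm u (π.cc m) m) + π.al m i = 0 := fun m i => by
    simp only [ot, Wd.Pg.al, Pi.add_apply, Finset.sum_apply, Pi.smul_apply, smul_eq_mul, pd.hb,
      pd.ha, mul_neg, Finset.sum_neg_distrib, dotProduct]
    simp only [mul_comm (m _)]
    ring
  have k2 : ∀ m P, Tv s (Fin.append y u) P → P.ord (hm u (π.cc m) m) = 0 := fun m P v => by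
    obtain ⟨a, b⟩ := (f9 P).1 v
    have b' : ∀ i, P.ord (u i) = 0 := fun i => by simpa using b (Fin.natAdd r i)
    simp [ot, a _, b', dotProduct]
  have k3 : ∀ m, ∀ P ∈ T, ∀ p ∉ J, At s P (some p) → 0 ≤ P.ord (hm u (π.cc m) m) ∧
      ∃ P' ∈ T, At s P' (some p) ∧ P'.ord (hm u (π.cc m) m) = 0 := fun m P t p n a => by
    have o : ∀ P ∈ T, At s P (some p) → P.ord (hm u (π.cc m) m) =
        (fun i => P.ord (u i)) ⬝ᵥ m + if p ∈ π.I then π.κ p m else 0 := fun P t a => by
      simp only [ot, ol P p _ a, (x.od.od P t p n a).1, mul_ite, mul_one, mul_zero,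
        Finset.sum_ite_eq', add_comm]
    by_cases b : p ∈ π.I
    · obtain ⟨b1, v, hv, b2⟩ := pd.hk p b m
      obtain ⟨P', t', a', rfl⟩ := (pd.hV p v).1 hv
      rw [o P t a, if_pos b]
      exact ⟨b1 _ ((pd.hV p _).2 ⟨P, t, a, rfl⟩), P', t', a', by rw [o P' t' a', if_pos b, b2]⟩
    · have z : P.ord (hm u (π.cc m) m) = 0 := by
        rw [o P t a, if_neg b, add_zero]
        exact Finset.sum_eq_zero fun i _ => mul_eq_zero_of_left
          (x.u0 P t p (fun i => b ((pd.hI p).2 ⟨i, n, P, t, a⟩)) a i (u0 i)) _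
      exact ⟨z.ge, P, t, a, z⟩
  refine ⟨gn.ne, fun p _ => ⟨l1 p, (gn.sec _ _ (l1 p)).2 fun P t => ?_⟩, fun δ φ hφ => ?_,
    fun δ m z => ?_⟩
  · rw [pd.hl]
    by_cases n : P ∈ range e
    · obtain ⟨i, rfl⟩ := n
      rw [dr_self inj, pd.hb, add_neg_cancel]
    · rw [dr_not n, add_zero]
      rcases h2 P t n with v | ⟨p', -, a⟩
      · exact (((f9 P).1 v).1 p).ge
      · rw [ol P p' p a]
        split_ifs
        exacts [a.1.le, le_rfl]
  · have := Wd.G70.cmp70 Pq.fac (fun i => sb (fr s y) (Fin.castAdd r i))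
      (fun i => sb (fr s y) (Fin.natAdd c i)) (fun i => (Fin.append_left s y i).symm)
      (fun i => (Fin.append_left y u i).trans (Fin.append_right s y i).symm) fm
      (fun P => δ ⬝ᵥ Dr e P) (fun P _ v => dr_not (tv P v) δ) _ (cx.sec δ) hφ
    simpa only [Fin.append_right] using this
  rcases eq_or_ne z 0 with rfl | z0
  · rw [hm_zero, zero_div]
    exact iff_of_true (zero_mem _) (zero_mem _)
  have z1 : z / π.cc m ≠ 0 := div_ne_zero z0 (c0 m)
  have eo : ∀ P : Pl K, P.ord (hm u z m) =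
      P.ord ((z / π.cc m : Sb (fr s y)) : K) + P.ord (hm u (π.cc m) m) := fun P => by
    have : hm u z m = algebraMap _ K (z / π.cc m) * hm u (π.cc m) m := by
      rw [hm, hm, ← mul_assoc, ← map_mul, div_mul_cancel₀ _ (c0 m)]
    rw [this]
    exact P297Z.Pl.ord_mul _ ((map_ne_zero _).2 z1) (hm_ne u0 (c0 m) _)
  rw [cx.sec _ _ (hm_ne u0 z0 _), gn.sec _ _ z1]
  simp only [eo]
  refine ⟨fun h P t => ?_, fun h P t => ?_⟩
  · by_cases n : P ∈ range e
    · obtain ⟨i, rfl⟩ := n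
      have a1 := h _ t
      have a2 := k1 m i
      rw [dr_self inj] at a1 ⊢
      rw [Pi.sub_apply]
      omega
    · rw [dr_not n, add_zero]
      rcases h2 P t n with v | ⟨p, b, a⟩
      · have a1 := h P t
        rwa [dr_not n, k2 m P v, add_zero, add_zero] at a1
      · obtain ⟨P', t', a', o⟩ := (k3 m P t p b a).2
        have a1 := h P' t'
        rwa [dr_not (nk P' p b a'), o, add_zero, add_zero,
          ind K c r ρ s y u T J κ fm x.od x.y1 p b P' t' P t a' a _ z1] at a1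
  · have a1 := h P t
    by_cases n : P ∈ range e
    · obtain ⟨i, rfl⟩ := n
      have a2 := k1 m i
      rw [dr_self inj] at a1 ⊢
      rw [Pi.sub_apply] at a1
      omega
    · rw [dr_not n, add_zero] at a1 ⊢
      rcases h2 P t n with v | ⟨p, b, a⟩
      · rwa [k2 m P v, add_zero]
      · exact add_nonneg a1 (k3 m P t p b a).1

end Vale.Agent.P283R.Wc
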